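import Vale.Agent.P366S.Hardy

/-!
# P366S: the theorem of Simons
-/

open MeasureTheory Set Filter Topology
open scoped ContDiff InnerProductSpace

noncomputable section

namespace Vale.Agent.P366S

variable {E : Type} [NormedAddCommGroup E] [InnerProductSpace ℝ E] [FiniteDimensional ℝ E]
variable {S : Set E} {x : E} {V : Submodule ℝ E} {F f : E → ℝ}

theorem Lev.const' (h : Lev S F x) (hx : x ∈ S) {G : SG x} (hf : Rep S f G)
    (h0 : ∀ᶠ y in 𝓝[S] x, ∀ k, del S f (bs E k) y = 0) : ∀ᶠ y in 𝓝[S] x, f y = f x := by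
  obtain ⟨g, hg, rfl, e⟩ := hf
  have := h.const hx hg.diff (by
    filter_upwards [h0, eventually_eventually_nhdsWithin.2 e, mem_nhdsWithin_of_mem_nhds hg.diff,
      self_mem_nhdsWithin] with y b1 b2 b3 b4 v hv
    have b5 := sum_bs ((fderiv ℝ g y).comp (prj S y)) v
    simp only [ContinuousLinearMap.comp_apply, ← del_eq b3.hasFDerivAt.hasFDerivWithinAt,
      ← del_congr b4 b2, b1, mul_zero, Finset.sum_const_zero] at b5
    rw [← show prj S y v = v from Submodule.starProjection_eq_self_iff.2 hv,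
      ← del_eq b3.hasFDerivAt.hasFDerivWithinAt, ← del_congr b4 b2, ← b5])
  filter_upwards [this, e] with y b1 b2
  rw [b2, b1, e.self_of_nhdsWithin hx]

theorem Lev.flat' (h : Lev S F x) (hx : x ∈ S) (h0 : ∀ y ∈ S, c2 S y = 0) :
    ∀ᶠ y in 𝓝 x, y ∈ S ↔ fderiv ℝ F x (y - x) = 0 := by
  have h1 : ∀ y ∈ S, ∀ k i j, del S (Pc S i j) (bs E k) y = 0 := fun y hy k i j => by
    have := h0 y hy
    rw [c2, div_eq_zero_iff, or_iff_left two_ne_zero,
      Finset.sum_eq_zero_iff_of_nonneg fun _ _ => by positivity] at this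
    have := (Finset.sum_eq_zero_iff_of_nonneg fun _ _ => by positivity).1
      (this k (Finset.mem_univ _)) i (Finset.mem_univ _)
    have := (Finset.sum_eq_zero_iff_of_nonneg fun _ _ => by positivity).1 this j (Finset.mem_univ _)
    exact pow_eq_zero_iff two_ne_zero |>.1 this
  have h2 : ∀ᶠ y in 𝓝[S] x, ∀ i j, Pc S i j y = Pc S i j x :=
    eventually_all.2 fun i => eventually_all.2 fun j => h.const' hx (h.repP i j)
      (eventually_nhdsWithin_of_forall fun y hy k => h1 y hy k i j)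
  have h3 := h.const' hx (f := fderiv ℝ F x)
    (Rep.mk (.of_forall fun _ => (fderiv ℝ F x).contDiff.contDiffAt)) (by
      filter_upwards [h2] with y hy k
      rw [del_eq (fderiv ℝ F x).hasFDerivWithinAt,
        InnerProductSpace.ext_inner_left_basis (bs E).toBasis (x := prj S y (bs E k))
          (y := prj S x (bs E k)) fun i => hy i k]
      exact (h.mem_tsp hx _).1 (prj_mem _ _ _))
  exact h.flat hx (h3.mono fun y hy => by rw [map_sub, hy, sub_self])

omit [FiniteDimensional ℝ E] in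
theorem ker_le {L L' : E →L[ℝ] ℝ} (hx : x ∈ S) (h : ∀ᶠ y in 𝓝 x, y ∈ S ↔ L y = 0)
    (h' : ∀ᶠ y in 𝓝 x, y ∈ S ↔ L' y = 0) {v : E} (hv : L v = 0) : L' v = 0 := by
  have c : Tendsto (fun t : ℝ => x + t • v) (𝓝[≠] 0) (𝓝 x) := by
    have : Continuous fun t : ℝ => x + t • v := by fun_prop
    simpa using (this.tendsto 0).mono_left nhdsWithin_le_nhds
  obtain ⟨t, ⟨a, b⟩, ht⟩ := (((c.eventually h).and (c.eventually h')).and self_mem_nhdsWithin).exists
  have := b.1 (a.2 (by simp [hv, h.self_of_nhds.1 hx]))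
  simpa [h'.self_of_nhds.1 hx, show t ≠ 0 from ht] using this

theorem finrank_ker {L : E →L[ℝ] ℝ} (h : L ≠ 0) :
    Module.finrank ℝ L.ker + 1 = Module.finrank ℝ E :=
  Module.Dual.finrank_ker_add_one_of_ne_zero (f := L.toLinearMap)
    fun e => h (ContinuousLinearMap.coe_injective e)

theorem spread (hc : closure S ∩ (V : Set E)ᶜ ⊆ S)
    (h1 : Module.finrank ℝ V + 3 ≤ Module.finrank ℝ E)
    (hl : ∀ x ∈ S, ∃ L : E →L[ℝ] ℝ, ∀ᶠ y in 𝓝 x, y ∈ S ↔ L y = 0) {L : E →L[ℝ] ℝ} (h0 : L ≠ 0)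
    (hV : ∀ v ∈ V, L v = 0) (hx : x ∈ S) (hxV : x ∉ V) (h : ∀ᶠ y in 𝓝 x, y ∈ S ↔ L y = 0) {z : E}
    (hz : L z = 0) (hzV : z ∉ V) : ∀ᶠ y in 𝓝 z, y ∈ S ↔ L y = 0 := by
  have r1 := finrank_ker h0
  have r2 := (Submodule.comapSubtypeEquivOfLe (show V ≤ L.ker from hV)).finrank_eq
  have r3 := (V.comap L.ker.subtype).finrank_quotient_add_finrank
  have cn := (isConnected_compl_of_one_lt_codim (E := V.comap L.ker.subtype)
    (by rw [← Module.finrank_eq_rank]; exact_mod_cast (by omega))).isPreconnected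
  have op : IsOpen {w : L.ker | ∀ᶠ y in 𝓝 (w : E), y ∈ S ↔ L y = 0} :=
    isOpen_setOfPred_eventually_nhds.preimage continuous_subtype_val
  refine cn.subset_of_closure_inter_subset op ⟨⟨x, h.self_of_nhds.1 hx⟩, hxV, h⟩ ?_
    (a := ⟨z, hz⟩) hzV
  rintro w ⟨w1, w2⟩
  have w3 : (w : E) ∈ S := by
    refine hc ⟨map_mem_closure continuous_subtype_val w1 fun u hu => ?_, w2⟩
    exact hu.self_of_nhds.2 u.2
  obtain ⟨L', hL'⟩ := hl w w3
  obtain ⟨u, u1, u2⟩ := mem_closure_iff_nhds.1 w1 _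
    (continuous_subtype_val.continuousAt.eventually hL'.eventually_nhds)
  have u3 : (u : E) ∈ S := u2.self_of_nhds.2 u.2
  exact hL'.mono fun y hy => hy.trans ⟨ker_le u3 u1 u2, ker_le u3 u2 u1⟩

/-- **the theorem of Simons** -/
theorem simons : SIMONS := by
  intro E _ _ _ _ _ V S μ h1 h2 hs hc
  have key : ∃ w : E, w ≠ 0 ∧ (∀ v ∈ V, ⟪w, v⟫_ℝ = 0) ∧ ∀ x ∈ S, ⟪w, x⟫_ℝ = 0 := by
    have hl : ∀ x ∈ S, ∃ L : E →L[ℝ] ℝ, L ≠ 0 ∧ (∀ v ∈ V, L v = 0) ∧
        ∀ᶠ y in 𝓝 x, y ∈ S ↔ L y = 0 := fun x hx => by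
      obtain ⟨F, hF⟩ := hs.reg x hx
      refine ⟨fderiv ℝ F x, hF.ne, fun v hv => (hF.mem_tsp hx v).1 (hc.mem_tsp hx hv), ?_⟩
      have := hF.flat' hx fun y hy => hc.c2_zero hs h1 h2 hy
      simpa only [map_sub, (hF.mem_tsp hx x).1 (hc.self_mem_tsp hx), sub_zero] using this
    have hl' : ∀ x ∈ S, ∃ L : E →L[ℝ] ℝ, ∀ᶠ y in 𝓝 x, y ∈ S ↔ L y = 0 := fun x hx =>
      let ⟨L, h⟩ := hl x hx; ⟨L, h.2.2⟩
    rcases S.eq_empty_or_nonempty with rfl | ⟨x, hx⟩
    · have r := V.finrank_add_finrank_orthogonal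
      obtain ⟨w, hw, w0⟩ := Submodule.exists_mem_ne_zero_of_ne_bot (p := Vᗮ) fun e => by
        rw [e, finrank_bot] at r; omega
      exact ⟨w, w0, fun v hv => Submodule.inner_left_of_mem_orthogonal hv hw, by simp⟩
    · obtain ⟨L, a1, a2, a3⟩ := hl x hx
      refine ⟨(InnerProductSpace.toDual ℝ E).symm L, by simpa using a1,
        fun v hv => by simpa using a2 v hv, fun x' hx' => ?_⟩
      obtain ⟨L', b1, b2, b3⟩ := hl x' hx'
      have r1 := finrank_ker a1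
      have r2 := finrank_ker b1
      have r3 := Submodule.finrank_sup_add_finrank_inf_eq L.ker L'.ker
      have r4 := (L.ker ⊔ L'.ker).finrank_le
      obtain ⟨z, z1, z2⟩ : ∃ z ∈ L.ker ⊓ L'.ker, z ∉ V := by
        by_contra hn
        push Not at hn
        have := Submodule.finrank_mono (show L.ker ⊓ L'.ker ≤ V from hn)
        omega
      have c1 := spread hs.cl h1 hl' a1 a2 hx (hs.sub hx) a3 z1.1 z2
      have c2 := spread hs.cl h1 hl' b1 b2 hx' (hs.sub hx') b3 z1.2 z2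
      simpa using ker_le (c1.self_of_nhds.2 z1.1) c2 c1 (b3.self_of_nhds.1 hx')
  obtain ⟨w, w0, w1, w2⟩ := key
  refine ⟨‖w‖⁻¹ • w, norm_smul_inv_norm w0, fun v hv => ?_, fun x hx => ?_⟩
  · rw [inner_smul_left, w1 v hv, mul_zero]
  · rw [inner_smul_left, w2 x hx, mul_zero]

end Vale.Agent.P366S
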