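import Vale.Agent.P366S.Defs

/-!
# P366S: the tangent space of a regular level set
-/

open Set Filter Topology
open scoped ContDiff InnerProductSpace

noncomputable section

namespace Vale.Agent.P366S

variable {E : Type} [NormedAddCommGroup E] [InnerProductSpace ℝ E] [FiniteDimensional ℝ E]
variable {S : Set E} {F f g : E → ℝ} {x : E}

omit [FiniteDimensional ℝ E] in
theorem eq_on_tsp {f' g' : E →L[ℝ] ℝ} (h : HasFDerivWithinAt f f' S x)
    (h' : HasFDerivWithinAt f g' S x) {v : E} (hv : v ∈ tsp S x) : f' v = g' v :=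
  LinearMap.eqOn_span' (f := f'.toLinearMap) (g := g'.toLinearMap) (h.unique_on h') hv

theorem prj_mem (S : Set E) (x v : E) : prj S x v ∈ tsp S x :=
  Submodule.starProjection_apply_mem _ _

theorem del_eq {f' : E →L[ℝ] ℝ} (h : HasFDerivWithinAt f f' S x) (v : E) :
    del S f v x = f' (prj S x v) :=
  eq_on_tsp h.differentiableWithinAt.hasFDerivWithinAt h (prj_mem S x v)

theorem del_congr (hx : x ∈ S) (h : f =ᶠ[𝓝[S] x] g) (v : E) : del S f v x = del S g v x := by
  rw [del, del, h.fderivWithin_eq_of_mem hx]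

omit [FiniteDimensional ℝ E] in
theorem Lev.ev (h : Lev S F x) : ∀ᶠ y in 𝓝 x, Lev S F y := by
  have h1 : ContinuousAt (fderiv ℝ F) x :=
    (h.sm.self_of_nhds.fderiv_right (m := 0) (by simp)).continuousAt
  filter_upwards [h.sm.eventually_nhds, h.mem.eventually_nhds, h1.eventually_ne h.ne]
    with y a b c using ⟨a, c, b⟩

omit [FiniteDimensional ℝ E] in
theorem hasFDerivAt_sub (L : E →L[ℝ] ℝ) (x z : E) : HasFDerivAt (fun y => L (y - x)) L z := by
  simp only [map_sub]
  exact L.hasFDerivAt.sub_const _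

/-- a chart which straightens the level set -/
theorem Lev.chart (h : Lev S F x) : ∃ (Ψ : E → E) (w : E), Ψ x = x ∧
    HasFDerivAt Ψ (ContinuousLinearMap.id ℝ E) x ∧ (∀ᶠ z in 𝓝 x, DifferentiableAt ℝ Ψ z) ∧
    fderiv ℝ F x w = 1 ∧
    (∀ᶠ y in 𝓝 x, Ψ (y + (F y - F x - fderiv ℝ F x (y - x)) • w) = y) ∧
    ∀ᶠ z in 𝓝 x, Ψ z + (F (Ψ z) - F x - fderiv ℝ F x (Ψ z - x)) • w = z := by
  obtain ⟨w0, hw0⟩ : ∃ w0, fderiv ℝ F x w0 ≠ 0 := by
    by_contra hc
    push Not at hc
    exact h.ne (ContinuousLinearMap.ext hc)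
  set L := fderiv ℝ F x with hL
  set w : E := (L w0)⁻¹ • w0 with hw
  have hLw : L w = 1 := by rw [hw, map_smul, smul_eq_mul, inv_mul_cancel₀ hw0]
  set Φ : E → E := fun y => y + (F y - F x - L (y - x)) • w with hΦ
  have hF : ContDiffAt ℝ 1 F x := h.sm.self_of_nhds.of_le (by simp)
  have hc : ContDiffAt ℝ 1 Φ x := by
    refine contDiffAt_id.add (ContDiffAt.smul ((hF.sub contDiffAt_const).sub ?_) contDiffAt_const)
    exact L.contDiff.contDiffAt.comp x (contDiffAt_id.sub contDiffAt_const)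
  have hd : HasFDerivAt Φ ((ContinuousLinearEquiv.refl ℝ E : E ≃L[ℝ] E) : E →L[ℝ] E) x := by
    have h1 : HasFDerivAt (fun y => F y - F x - L (y - x)) (L - L) x := by
      refine ((hF.differentiableAt one_ne_zero).hasFDerivAt.sub_const _).sub ?_
      exact hasFDerivAt_sub L x x
    have := (hasFDerivAt_id x).add (h1.smul_const w)
    rw [sub_self, ContinuousLinearMap.zero_smulRight, add_zero] at this
    exact this
  have hx : Φ x = x := by simp [hΦ]
  have hs := hc.hasStrictFDerivAt' hd one_ne_zero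
  refine ⟨hc.localInverse hd one_ne_zero, w, ?_, ?_, ?_, hLw, hs.eventually_left_inverse, ?_⟩
  · have := hc.localInverse_apply_image hd one_ne_zero
    rwa [hx] at this
  · have := hs.to_localInverse.hasFDerivAt
    rw [hx] at this
    exact this
  · have := hc.to_localInverse hd one_ne_zero
    rw [hx] at this
    exact (this.eventually (by simp)).mono fun z hz => hz.differentiableAt one_ne_zero
  · have := hs.eventually_right_inverse
    rw [hx] at this
    exact this

theorem Lev.mem_tsp (h : Lev S F x) (hx : x ∈ S) (v : E) :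
    v ∈ tsp S x ↔ fderiv ℝ F x v = 0 := by
  have hF : DifferentiableAt ℝ F x := h.sm.self_of_nhds.differentiableAt (by simp)
  have h0 : F x = 0 := h.mem.self_of_nhds.1 hx
  constructor
  · intro hv
    have h2 : HasFDerivWithinAt F (0 : E →L[ℝ] ℝ) S x := by
      refine (hasFDerivWithinAt_const (0 : ℝ) x S).congr_of_eventuallyEq ?_ h0
      filter_upwards [mem_nhdsWithin_of_mem_nhds h.mem, self_mem_nhdsWithin] with y a b
        using a.1 b
    exact eq_on_tsp hF.hasFDerivAt.hasFDerivWithinAt h2 hv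
  · intro hv
    obtain ⟨Ψ, w, a1, a2, -, a4, -, a6⟩ := h.chart
    have hl : HasFDerivAt (fun t : ℝ => x + t • v) (ContinuousLinearMap.toSpanSingleton ℝ v) 0 :=
      ((ContinuousLinearMap.toSpanSingleton ℝ v).hasFDerivAt).const_add x
    have hl0 : (fun t : ℝ => x + t • v) 0 = x := by simp
    have hg := HasFDerivAt.comp (0 : ℝ) (f := fun t : ℝ => x + t • v) (hl0 ▸ a2) hl
    have hm : {t : ℝ | Ψ (x + t • v) ∈ S} ∈ 𝓝 (0 : ℝ) := by
      have c1 : Tendsto (fun t : ℝ => x + t • v) (𝓝 0) (𝓝 x) := by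
        simpa using hl.continuousAt.tendsto
      have c2 : Tendsto Ψ (𝓝 x) (𝓝 x) := by
        have := a2.continuousAt.tendsto
        rwa [a1] at this
      filter_upwards [c1.eventually a6, (c2.comp c1).eventually h.mem] with t b1 b2
      refine b2.2 ?_
      have := congrArg (fun z => fderiv ℝ F x (z - x)) b1
      simp only [add_sub_cancel_left, map_smul, hv, smul_eq_mul, mul_zero, add_sub_right_comm,
        map_add, a4, h0] at this
      simp only [Function.comp]
      linarith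
    have := hg.hasFDerivWithinAt.mapsTo_tangent_cone (s := {t : ℝ | Ψ (x + t • v) ∈ S})
      (show (1 : ℝ) ∈ _ by rw [tangentConeAt_of_mem_nhds hm]; trivial)
    simp only [Function.comp, zero_smul, add_zero, a1] at this
    refine Submodule.subset_span (tangentConeAt_mono ?_ (by simpa using this))
    rintro _ ⟨t, ht, rfl⟩
    exact ht

theorem sum_bs (L : E →L[ℝ] ℝ) (v : E) : ∑ l, ⟪bs E l, v⟫_ℝ * L (bs E l) = L v := by
  conv_rhs => rw [← (bs E).sum_repr' v]
  simp only [map_sum, map_smul, smul_eq_mul]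

theorem Lev.prj_eq (h : Lev S F x) (hx : x ∈ S) (v : E) : prj S x v = v -
    (fderiv ℝ F x v / ‖fderiv ℝ F x‖) •
      ∑ l, (fderiv ℝ F x (bs E l) / ‖fderiv ℝ F x‖) • bs E l := by
  set L := fderiv ℝ F x with hL
  have hn : ‖L‖ ≠ 0 := norm_ne_zero_iff.2 h.ne
  apply Submodule.eq_starProjection_of_mem_of_inner_eq_zero
  · rw [h.mem_tsp hx, ← hL]
    simp only [map_sub, map_smul, map_sum, smul_eq_mul, div_mul_eq_mul_div, ← Finset.sum_div,
      ← sq, ← (bs E).norm_dual L]
    field_simp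
    ring
  · intro u hu
    rw [h.mem_tsp hx, ← hL] at hu
    have := sum_bs L u
    simp only [sub_sub_cancel, inner_smul_left, sum_inner, RCLike.conj_to_real,
      div_mul_eq_mul_div, ← Finset.sum_div, mul_comm (L (bs E _))]
    rw [this, hu]; simp

/-- a function with vanishing tangential derivative is locally constant -/
theorem Lev.const (h : Lev S F x) (hx : x ∈ S) (hg : ∀ᶠ y in 𝓝 x, DifferentiableAt ℝ g y)
    (h0 : ∀ᶠ y in 𝓝[S] x, ∀ v ∈ tsp S y, fderiv ℝ g y v = 0) : ∀ᶠ y in 𝓝[S] x, g y = g x := by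
  obtain ⟨Ψ, w, a1, a2, a3, a4, a5, a6⟩ := h.chart
  have hF0 : F x = 0 := h.mem.self_of_nhds.1 hx
  set L := fderiv ℝ F x with hL
  have c2 : Tendsto Ψ (𝓝 x) (𝓝 x) := by
    have := a2.continuousAt.tendsto
    rwa [a1] at this
  have a7 : ∀ᶠ z in 𝓝 x, F (Ψ z) = L (z - x) := by
    filter_upwards [a6] with z hz
    have := congrArg (fun z => L (z - x)) hz
    simp only [add_sub_right_comm, map_add, map_smul, smul_eq_mul, a4, hF0] at this
    linarith
  rw [eventually_nhdsWithin_iff] at h0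
  have key : ∀ᶠ z in 𝓝 x, DifferentiableAt ℝ (g ∘ Ψ) z ∧
      (L (z - x) = 0 → ∀ v, L v = 0 → fderiv ℝ (g ∘ Ψ) z v = 0) := by
    filter_upwards [a3, a7.eventually_nhds, c2.eventually hg, c2.eventually h0,
      c2.eventually h.ev] with z b1 b2 b3 b4 b5
    refine ⟨b3.comp z b1, fun hz v hv => ?_⟩
    have hS : Ψ z ∈ S := b5.mem.self_of_nhds.2 (by rw [b2.self_of_nhds, hz])
    rw [fderiv_comp z b3 b1, ContinuousLinearMap.comp_apply]
    refine b4 hS _ ((b5.mem_tsp hS _).2 ?_)
    have d1 : HasFDerivAt (F ∘ Ψ) ((fderiv ℝ F (Ψ z)).comp (fderiv ℝ Ψ z)) z :=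
      (b5.sm.self_of_nhds.differentiableAt (by simp)).hasFDerivAt.comp z b1.hasFDerivAt
    have d2 : HasFDerivAt (F ∘ Ψ) L z := by
      exact (hasFDerivAt_sub L x z).congr_of_eventuallyEq b2
    rw [← ContinuousLinearMap.comp_apply, d1.unique d2, hv]
  obtain ⟨r, hr, hb⟩ := Metric.eventually_nhds_iff_ball.1 key
  have seg : ∀ z ∈ Metric.ball x r, L (z - x) = 0 → g (Ψ z) = g x := fun z hz hz0 => by
    have hm : ∀ t ∈ Icc (0 : ℝ) 1, x + t • (z - x) ∈ Metric.ball x r := fun t ht =>
      (convex_ball x r).add_smul_sub_mem (Metric.mem_ball_self hr) hz ht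
    have hd : ∀ t ∈ Icc (0 : ℝ) 1, HasDerivAt (fun t : ℝ => g (Ψ (x + t • (z - x)))) 0 t :=
      fun t ht => by
        have e1 : HasDerivAt (fun t : ℝ => x + t • (z - x)) (z - x) t := by
          simpa using ((hasDerivAt_id t).smul_const (z - x)).const_add x
        have e2 := (hb _ (hm t ht)).1.hasFDerivAt.comp_hasDerivAt t e1
        rw [(hb _ (hm t ht)).2 (by simp [hz0, -map_sub]) _ hz0] at e2
        exact e2
    have := constant_of_has_deriv_right_zero (fun t ht => (hd t ht).continuousAt.continuousWithinAt)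
      (fun t ht => (hd t (Ico_subset_Icc_self ht)).hasDerivWithinAt) 1 (by simp)
    simpa [a1] using this
  have c3 : ContinuousAt (fun y => y + (F y - F x - L (y - x)) • w) x := by
    have := h.sm.self_of_nhds.continuousAt
    fun_prop
  have c4 : ∀ᶠ y in 𝓝 x, y + (F y - F x - L (y - x)) • w ∈ Metric.ball x r :=
    c3.eventually_mem (by simpa using Metric.ball_mem_nhds x hr)
  filter_upwards [mem_nhdsWithin_of_mem_nhds a5, mem_nhdsWithin_of_mem_nhds c4,
    mem_nhdsWithin_of_mem_nhds h.mem, self_mem_nhdsWithin] with y b1 b2 b3 b4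
  have := seg _ b2 (by
    simp only [add_sub_right_comm, map_add, map_smul, smul_eq_mul, a4, hF0, b3.1 b4]; ring)
  rw [← this]
  exact congrArg g b1.symm

/-- a level set inside its tangent hyperplane coincides with it -/
theorem Lev.flat (h : Lev S F x) (hx : x ∈ S)
    (h0 : ∀ᶠ y in 𝓝[S] x, fderiv ℝ F x (y - x) = 0) :
    ∀ᶠ y in 𝓝 x, y ∈ S ↔ fderiv ℝ F x (y - x) = 0 := by
  obtain ⟨Ψ, w, a1, a2, -, a4, -, a6⟩ := h.chart
  have hF0 : F x = 0 := h.mem.self_of_nhds.1 hx
  have c2 : Tendsto Ψ (𝓝 x) (𝓝 x) := by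
    have := a2.continuousAt.tendsto
    rwa [a1] at this
  rw [eventually_nhdsWithin_iff] at h0
  filter_upwards [h0, a6, c2.eventually h0, c2.eventually h.mem] with z b1 b2 b3 b4
  refine ⟨b1, fun hz => ?_⟩
  have e1 : F (Ψ z) = 0 := by
    have := congrArg (fun z => fderiv ℝ F x (z - x)) b2
    simp only [add_sub_right_comm, map_add, map_smul, smul_eq_mul, a4, hF0, hz] at this
    linarith
  have e2 := b4.2 e1
  rw [e1, hF0, b3 e2] at b2
  simp only [sub_self, zero_smul, add_zero] at b2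
  rwa [← b2]

end Vale.Agent.P366S
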