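import Vale.Agent.P366S.Int

/-!
# P366S: invariance of the second fundamental form under the symmetries of the cone
-/

open MeasureTheory Set Filter Topology
open scoped ContDiff InnerProductSpace

noncomputable section

namespace Vale.Agent.P366S

variable {E : Type} [NormedAddCommGroup E] [InnerProductSpace ℝ E]
variable {S : Set E} {x : E}

theorem hasFDerivAt_aff (t : ℝ) (v x : E) :
    HasFDerivAt (fun y => t • y + v) (t • ContinuousLinearMap.id ℝ E) x :=
  ((hasFDerivAt_id x).const_smul t).add_const v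

variable [FiniteDimensional ℝ E]

omit [FiniteDimensional ℝ E] in
theorem tsp_le {t : ℝ} {v : E} (ht : t ≠ 0) (h : ∀ y ∈ S, t • y + v ∈ S) (x : E) :
    tsp S x ≤ tsp S (t • x + v) := by
  refine Submodule.span_le.2 fun w hw => ?_
  have h1 := (hasFDerivAt_aff t v x).hasFDerivWithinAt.mapsTo_tangent_cone hw
  have h2 : t • w ∈ tsp S (t • x + v) :=
    Submodule.subset_span (tangentConeAt_mono (by rintro _ ⟨y, hy, rfl⟩; exact h y hy) h1)
  simpa [ht] using (tsp S (t • x + v)).smul_mem t⁻¹ h2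

variable [MeasurableSpace E] [BorelSpace E] {μ : Measure E} {V : Submodule ℝ E}

omit [FiniteDimensional ℝ E] [BorelSpace E] in
theorem Cone.aff (h : Cone V S μ) {t : ℝ} (ht : 0 < t) {v : E} (hv : v ∈ V) :
    ∀ y ∈ S, t • y + v ∈ S := fun y hy => h.tr v hv _ (h.dil t ht y hy)

omit [FiniteDimensional ℝ E] [BorelSpace E] in
theorem Cone.aff_iff (h : Cone V S μ) {t : ℝ} (ht : 0 < t) {v : E} (hv : v ∈ V) (y : E) :
    t • y + v ∈ S ↔ y ∈ S := by
  refine ⟨fun hy => ?_, h.aff ht hv y⟩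
  have := h.aff (inv_pos.2 ht) (V.neg_mem (V.smul_mem t⁻¹ hv)) _ hy
  simpa [smul_smul, ht.ne'] using this

omit [BorelSpace E] in
theorem Cone.prj_aff (h : Cone V S μ) {t : ℝ} (ht : 0 < t) {v : E} (hv : v ∈ V) (x : E) :
    prj S (t • x + v) = prj S x := by
  have : tsp S (t • x + v) = tsp S x := by
    refine le_antisymm ?_ (tsp_le ht.ne' (h.aff ht hv) x)
    have := tsp_le (inv_pos.2 ht).ne' (h.aff (inv_pos.2 ht) (V.neg_mem (V.smul_mem t⁻¹ hv)))
      (t • x + v)
    simpa [smul_smul, ht.ne'] using this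
  simp only [prj, this]

omit [BorelSpace E] in
theorem Cone.c2_aff (h : Cone V S μ) (hr : ∀ x ∈ S, ∃ F, Lev S F x) {t : ℝ} (ht : 0 < t) {v : E}
    (hv : v ∈ V) (hx : x ∈ S) : c2 S x = t ^ 2 * c2 S (t • x + v) := by
  have : ∀ k i j, del S (Pc S i j) (bs E k) x = t * del S (Pc S i j) (bs E k) (t • x + v) :=
    fun k i j => by
      have h1 := ((sm_Pc hr i j).diff (h.aff ht hv x hx)).hasFDerivWithinAt.comp x
        (hasFDerivAt_aff t v x).hasFDerivWithinAt (h.aff ht hv)
      have h2 : Pc S i j ∘ (fun y => t • y + v) = Pc S i j := by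
        funext y; simp only [Function.comp, Pc, h.prj_aff ht hv]
      rw [h2] at h1
      rw [del_eq h1, del, h.prj_aff ht hv]
      simp
  change (∑ k, ∑ i, ∑ j, del S (Pc S i j) (bs E k) x ^ 2) / 2
    = t ^ 2 * ((∑ k, ∑ i, ∑ j, del S (Pc S i j) (bs E k) (t • x + v) ^ 2) / 2)
  simp only [this, mul_pow, ← Finset.mul_sum]
  ring

omit [FiniteDimensional ℝ E] [BorelSpace E] in
theorem Cone.mem_tsp (h : Cone V S μ) (hx : x ∈ S) {v : E} (hv : v ∈ V) : v ∈ tsp S x :=
  Submodule.subset_span (mem_tangentConeAt_of_add_smul_mem (l := 𝓝[≠] (0 : ℝ)) tendsto_id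
    (.of_forall fun c => h.tr _ (V.smul_mem c hv) x hx))

omit [FiniteDimensional ℝ E] [BorelSpace E] in
theorem Cone.self_mem_tsp (h : Cone V S μ) (hx : x ∈ S) : x ∈ tsp S x := by
  refine Submodule.subset_span (mem_tangentConeAt_of_add_smul_mem (l := 𝓝[≠] (0 : ℝ)) tendsto_id ?_)
  filter_upwards [mem_nhdsWithin_of_mem_nhds (lt_mem_nhds (show (-1 : ℝ) < 0 by norm_num))]
    with c hc
  have := h.dil (1 + c) (by linarith) x hx
  simpa [add_smul] using this

/-- the squared distance to the spine -/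
def rho (V : Submodule ℝ E) (x : E) : ℝ := ‖x - V.starProjection x‖ ^ 2

omit [MeasurableSpace E] [BorelSpace E] in
theorem rho_pos (hx : x ∉ V) : 0 < rho V x :=
  pow_pos (norm_pos_iff.2 fun h => hx (by
    rw [sub_eq_zero.1 h]; exact V.starProjection_apply_mem x)) 2

omit [MeasurableSpace E] [BorelSpace E] in
theorem rho_smooth : ContDiff ℝ ∞ (rho V) :=
  (contDiff_id.sub V.starProjection.contDiff).norm_sq ℝ

omit [MeasurableSpace E] [BorelSpace E] in
theorem isOpen_spine (V : Submodule ℝ E) : IsOpen (V : Set E)ᶜ :=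
  V.closed_of_finiteDimensional.isOpen_compl

/-- the Hardy type inequality on a stable cone -/
theorem Cone.hardy (h : Cone V S μ) (hs : Stable (V : Set E)ᶜ S μ) {ψ : E → ℝ}
    (hψ : TS (V : Set E)ᶜ S ψ) : 2 * ∫ y in S, ψ y ^ 2 * (c2 S y * (rho V y)⁻¹) ∂μ
      ≤ ∫ y in S, c2 S y * ∑ k, del S ψ (bs E k) y ^ 2 ∂μ := by
  refine hs.hardy (isOpen_spine V) ?_ (fun x hx => ?_) hψ
  · refine (Sm.of_smAt (f := rho V) fun x _ => .of_forall fun _ => rho_smooth.contDiffAt).comp
      (φ := fun t => t⁻¹) fun x hx => ?_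
    exact (eventually_ne_nhds (rho_pos (hs.sub hx)).ne').mono fun _ ht => contDiffAt_inv ℝ ht
  · obtain ⟨F, hF⟩ := hs.reg x hx
    have := hF.simons hx (v := V.starProjection x)
      (fun j => eventually_nhdsWithin_of_forall fun y hy => hs.minimal (isOpen_spine V) j hy)
      (eventually_nhdsWithin_of_forall fun y hy => (tsp S y).sub_mem (h.self_mem_tsp hy)
        (h.mem_tsp hy (V.starProjection_apply_mem x)))
      (fun e => (rho_pos (hs.sub hx)).ne' (by rw [rho, e]; simp))
    simpa only [div_eq_mul_inv, rho] using this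

end Vale.Agent.P366S
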