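import Vale.Agent.P366S.Pt

/-!
# P366S: test functions on `S`, minimality, and the Hardy type inequality for `|A|^2`
-/

open MeasureTheory Set Filter Topology
open scoped ContDiff InnerProductSpace Manifold

noncomputable section

namespace Vale.Agent.P366S

variable {E : Type} [NormedAddCommGroup E] [InnerProductSpace ℝ E]
variable {U S : Set E} {F f g : E → ℝ} {x : E}

/-- functions on `S` which locally extend to smooth functions -/
def Sm (S : Set E) (f : E → ℝ) : Prop := ∀ x ∈ S, ∃ G : SG x, Rep S f G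

/-- test functions on `S` -/
structure TS (U S : Set E) (f : E → ℝ) : Prop where
  sm : Sm S f
  cs : ∃ K, IsCompact K ∧ K ⊆ U ∧ ∀ y ∈ S, y ∉ K → f y = 0

theorem Sm.of_smAt (h : ∀ x ∈ S, SmAt f x) : Sm S f := fun x hx => ⟨_, Rep.mk (h x hx)⟩

theorem Sm.const (S : Set E) (a : ℝ) : Sm S fun _ => a := .of_smAt fun x _ => SmAt.const a x

theorem Sm.add (hf : Sm S f) (hg : Sm S g) : Sm S fun y => f y + g y := fun x hx =>
  let ⟨_, a⟩ := hf x hx; let ⟨_, b⟩ := hg x hx; ⟨_, a.add b⟩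

theorem Sm.mul (hf : Sm S f) (hg : Sm S g) : Sm S fun y => f y * g y := fun x hx =>
  let ⟨_, a⟩ := hf x hx; let ⟨_, b⟩ := hg x hx; ⟨_, a.mul b⟩

theorem Sm.sum {ι : Type} (s : Finset ι) {f : ι → E → ℝ} (hf : ∀ i, Sm S (f i)) :
    Sm S fun y => ∑ i ∈ s, f i y := fun x hx => by
  choose G hG using fun i => hf i x hx
  exact ⟨_, Rep.sum s hG⟩

theorem Sm.comp {φ : ℝ → ℝ} (hf : Sm S f) (hφ : ∀ x ∈ S, ∀ᶠ t in 𝓝 (f x), ContDiffAt ℝ ∞ φ t) :
    Sm S fun y => φ (f y) := fun x hx => by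
  obtain ⟨_, a, ha, rfl, e⟩ := hf x hx
  refine ⟨_, (Rep.mk (ha.comp (φ := φ) ?_)).congr (e.fun_comp φ)⟩
  rw [← e.self_of_nhdsWithin hx]
  exact hφ x hx

theorem Sm.diff (hf : Sm S f) (hx : x ∈ S) : DifferentiableWithinAt ℝ f S x := by
  obtain ⟨_, a, ha, rfl, e⟩ := hf x hx
  exact ha.diff.self_of_nhds.differentiableWithinAt.congr_of_eventuallyEq e
    (e.self_of_nhdsWithin hx)

theorem Sm.cont (hf : Sm S f) : ContinuousOn f S := fun _ hx => (hf.diff hx).continuousWithinAt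

theorem TS.mul (hf : TS U S f) (hg : Sm S g) : TS U S fun y => f y * g y := by
  obtain ⟨K, a, b, c⟩ := hf.cs
  exact ⟨hf.sm.mul hg, K, a, b, fun y hy hK => by rw [c y hy hK, zero_mul]⟩

theorem TS.mul' (hf : TS U S f) (hg : Sm S g) : TS U S fun y => g y * f y := by
  simpa only [mul_comm] using hf.mul hg

theorem TS.sq (hf : TS U S f) : TS U S fun y => f y ^ 2 := by
  simpa only [pow_two] using hf.mul hf.sm

theorem TS.add (hf : TS U S f) (hg : TS U S g) : TS U S fun y => f y + g y := by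
  obtain ⟨K, a, b, c⟩ := hf.cs
  obtain ⟨K', a', b', c'⟩ := hg.cs
  exact ⟨hf.sm.add hg.sm, K ∪ K', a.union a', union_subset b b', fun y hy hK => by
    rw [c y hy fun h => hK (.inl h), c' y hy fun h => hK (.inr h), add_zero]⟩

theorem TS.sum {ι : Type} (s : Finset ι) {f : ι → E → ℝ} (hf : ∀ i, TS U S (f i)) :
    TS U S fun y => ∑ i ∈ s, f i y := by
  classical
  induction s using Finset.induction_on with
  | empty => exact ⟨by simpa using Sm.const S 0, ∅, isCompact_empty, empty_subset _, by simp⟩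
  | insert a s ha ih => simpa only [Finset.sum_insert ha] using (hf a).add ih

variable [FiniteDimensional ℝ E]

theorem del_mul (hf : Sm S f) (hg : Sm S g) (hx : x ∈ S) (v : E) :
    del S (fun y => f y * g y) v x = del S f v x * g x + f x * del S g v x := by
  rw [del_eq ((hf.diff hx).hasFDerivWithinAt.fun_mul (hg.diff hx).hasFDerivWithinAt)]
  simp only [add_apply, smul_apply, smul_eq_mul, del]
  ring

theorem del_comp {φ : ℝ → ℝ} {a : ℝ} (hf : Sm S f) (hx : x ∈ S) (hφ : HasDerivAt φ a (f x))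
    (v : E) : del S (fun y => φ (f y)) v x = a * del S f v x := by
  rw [show (fun y => φ (f y)) = φ ∘ f from rfl,
    del_eq (hφ.comp_hasFDerivWithinAt x (hf.diff hx).hasFDerivWithinAt)]
  simp only [smul_apply, smul_eq_mul, del]

theorem Sm.del (hr : ∀ x ∈ S, ∃ F, Lev S F x) (hf : Sm S f) (k : Fin (Module.finrank ℝ E)) :
    Sm S (del S f (bs E k)) := fun x hx =>
  let ⟨_, h⟩ := hr x hx; let ⟨_, a⟩ := hf x hx; ⟨_, a.del h k⟩

theorem TS.del (hr : ∀ x ∈ S, ∃ F, Lev S F x) (hf : TS U S f) (k : Fin (Module.finrank ℝ E)) :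
    TS U S (del S f (bs E k)) := by
  obtain ⟨K, a, b, c⟩ := hf.cs
  refine ⟨hf.sm.del hr k, K, a, b, fun y hy hK => ?_⟩
  rw [del_congr (g := fun _ => 0) hy, del_const]
  filter_upwards [mem_nhdsWithin_of_mem_nhds (a.isClosed.isOpen_compl.mem_nhds hK),
    self_mem_nhdsWithin] with z h1 h2 using c z h2 h1

theorem sm_c2 (hr : ∀ x ∈ S, ∃ F, Lev S F x) : Sm S (c2 S) := fun x hx =>
  let ⟨_, h⟩ := hr x hx; ⟨_, h.repC⟩

theorem sm_Pc (hr : ∀ x ∈ S, ∃ F, Lev S F x) (i j : Fin (Module.finrank ℝ E)) :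
    Sm S (Pc S i j) := fun x hx =>
  let ⟨_, h⟩ := hr x hx; ⟨_, h.repP i j⟩

/-- extension of a test function on `S` -/
theorem TS.ext (hU : IsOpen U) (hc : closure S ∩ U ⊆ S) (hf : TS U S f) :
    ∃ φ, Test U φ ∧ ∀ y ∈ S, φ y = f y := by
  obtain ⟨K, a, b, c⟩ := hf.cs
  obtain ⟨K', a', b', c'⟩ := exists_compact_between a hU b
  obtain ⟨φ, hφ⟩ := exists_contMDiffMap_forall_mem_convex_of_local (n := (⊤ : ℕ∞)) 𝓘(ℝ, E)
    (t := fun y => {t : ℝ | (y ∈ S → t = f y) ∧ (y ∉ K' → t = 0)})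
    (fun y s hs t ht p q _ _ hpq => ⟨fun h => by
      rw [hs.1 h, ht.1 h, ← add_smul, hpq, one_smul], fun h => by
      rw [hs.2 h, ht.2 h, smul_zero, smul_zero, add_zero]⟩) (fun y => by
      by_cases h1 : y ∈ K
      · have n1 : K' ∈ 𝓝 y := mem_interior_iff_mem_nhds.1 (b' h1)
        by_cases h2 : y ∈ S
        · obtain ⟨_, g, hg, rfl, e⟩ := hf.sm y h2
          refine ⟨_, inter_mem (inter_mem hg (eventually_nhdsWithin_iff.1 e)) n1, g,
            fun z hz => (ContDiffAt.contMDiffAt (show ContDiffAt ℝ ∞ g z from hz.1.1)).contMDiffWithinAt,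
            fun z hz => ⟨fun h => (hz.1.2 h).symm, fun h => (h hz.2).elim⟩⟩
        · have n2 : (closure S)ᶜ ∈ 𝓝 y :=
            isClosed_closure.isOpen_compl.mem_nhds fun h => h2 (hc ⟨h, b h1⟩)
          exact ⟨_, inter_mem n1 n2, fun _ => 0, contMDiffOn_const,
            fun z hz => ⟨fun h => (hz.2 (subset_closure h)).elim, fun _ => rfl⟩⟩
      · exact ⟨_, a.isClosed.isOpen_compl.mem_nhds h1, fun _ => 0, contMDiffOn_const,
          fun z hz => ⟨fun h => (c z h hz).symm, fun _ => rfl⟩⟩)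
  have ht : tsupport φ ⊆ K' :=
    closure_minimal (fun y hy => by_contra fun h => hy ((hφ y).2 h)) a'.isClosed
  exact ⟨φ, ⟨φ.contMDiff.contDiff, a'.of_isClosed_subset (isClosed_tsupport _) ht, ht.trans c'⟩,
    fun y hy => (hφ y).1 hy⟩

theorem sq_le (L : E →L[ℝ] ℝ) (S : Set E) (x : E) :
    ∑ k, L (prj S x (bs E k)) ^ 2 = ‖L.comp (prj S x)‖ ^ 2 := by
  rw [(bs E).norm_dual]; rfl

theorem grad_le (S : Set E) {L : E →L[ℝ] ℝ} (hf : HasFDerivAt f L x) :
    ∑ k, del S f (bs E k) x ^ 2 ≤ ‖L‖ ^ 2 := by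
  simp only [del_eq hf.hasFDerivWithinAt, sq_le]
  refine pow_le_pow_left₀ (norm_nonneg _) ((L.opNorm_comp_le _).trans ?_) 2
  exact mul_le_of_le_one_right (norm_nonneg _) (Submodule.starProjection_norm_le _)

variable [MeasurableSpace E] [BorelSpace E] {μ : Measure E}

omit [InnerProductSpace ℝ E] [FiniteDimensional ℝ E] in
theorem meas (hU : IsOpen U) (h1 : S ⊆ U) (hc : closure S ∩ U ⊆ S) : MeasurableSet S := by
  rw [show S = closure S ∩ U from Subset.antisymm (subset_inter subset_closure h1) hc]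
  exact isClosed_closure.measurableSet.inter hU.measurableSet

theorem Stable.meas (h : Stable U S μ) (hU : IsOpen U) : MeasurableSet S :=
  P366S.meas hU h.sub h.cl

omit [BorelSpace E] in
theorem Stable.cpt (h : Stable U S μ) {K : Set E} (hK : IsCompact K) (hKU : K ⊆ U) :
    IsCompact (K ∩ S) := by
  rw [show K ∩ S = K ∩ closure S from Subset.antisymm (inter_subset_inter_right _ subset_closure)
    fun y hy => ⟨hy.1, h.cl ⟨hy.2, hKU hy.1⟩⟩]
  exact hK.inter_right isClosed_closure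

theorem Stable.int' (h : Stable U S μ) (hU : IsOpen U) {K : Set E} (hK : IsCompact K)
    (hKU : K ⊆ U) (hf : ContinuousOn f S) : IntegrableOn f (K ∩ S) μ :=
  (hf.mono inter_subset_right).integrableOn_of_subset_isCompact (h.cpt hK hKU)
    (hK.measurableSet.inter (h.meas hU)) Subset.rfl (h.fin _ (h.cpt hK hKU)).ne

theorem Stable.int (h : Stable U S μ) (hU : IsOpen U) (hf : TS U S f) : IntegrableOn f S μ := by
  obtain ⟨K, a, b, c⟩ := hf.cs
  exact (h.int' hU a b hf.sm.cont).of_forall_sdiff_eq_zero (h.meas hU)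
    fun y hy => c y hy.1 fun hK => hy.2 ⟨hK, hy.1⟩

theorem Stable.integral_eq (h : Stable U S μ) (hU : IsOpen U) (h0 : ∀ y, y ∉ U → f y = 0)
    (h1 : ∀ y ∈ S, f y = g y) : ∫ y, f y ∂μ = ∫ y in S, g y ∂μ := by
  rw [← setIntegral_congr_fun (h.meas hU) h1]
  refine (setIntegral_eq_integral_of_ae_compl_eq_zero ?_).symm
  filter_upwards [measure_eq_zero_iff_ae_notMem.1 h.null] with y hy hS
  exact h0 y fun hU => hy ⟨hU, hS⟩

omit [FiniteDimensional ℝ E] [MeasurableSpace E] [BorelSpace E] in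
theorem Test.fd {φ : E → ℝ} (hφ : Test U φ) {y : E} (hy : y ∉ U) : fderiv ℝ φ y = 0 :=
  fderiv_of_notMem_tsupport ℝ fun h => hy (hφ.sub h)

omit [MeasurableSpace E] [BorelSpace E] in
theorem Test.del {φ : E → ℝ} (hφ : Test U φ) (e : ∀ y ∈ S, φ y = f y) {y : E} (hy : y ∈ S)
    (v : E) : fderiv ℝ φ y (prj S y v) = del S f v y := by
  rw [← del_congr (f := φ) hy (eventually_nhdsWithin_of_forall e),
    del_eq ((hφ.sm.differentiable (by simp)) y).hasFDerivAt.hasFDerivWithinAt]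

theorem Stable.var' (h : Stable U S μ) (hU : IsOpen U) (hf : TS U S f) (v : E) :
    ∫ y in S, del S f v y ∂μ = 0 := by
  obtain ⟨φ, hφ, e⟩ := hf.ext hU h.cl
  rw [← h.var φ hφ v]
  exact (h.integral_eq hU (fun y hy => by rw [hφ.fd hy]; rfl) fun y hy => hφ.del e hy v).symm

theorem Stable.stab' (h : Stable U S μ) (hU : IsOpen U) (hf : TS U S f) :
    ∫ y in S, c2 S y * f y ^ 2 ∂μ ≤ ∫ y in S, ∑ k, del S f (bs E k) y ^ 2 ∂μ := by
  obtain ⟨φ, hφ, e⟩ := hf.ext hU h.cl
  have := h.stab φ hφ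
  rwa [h.integral_eq hU (g := fun y => c2 S y * f y ^ 2) (fun y hy => by
      rw [image_eq_zero_of_notMem_tsupport fun h => hy (hφ.sub h)]; simp)
      (fun y hy => by rw [e y hy]),
    h.integral_eq hU (g := fun y => ∑ k, del S f (bs E k) y ^ 2)
      (fun y hy => by rw [hφ.fd hy]; simp)
      (fun y hy => by simp only [← sq_le, hφ.del e hy])] at this

omit [BorelSpace E] in
/-- a continuous function on `S` which vanishes almost everywhere vanishes -/
theorem Stable.zero_of_ae (h : Stable U S μ) (hU : IsOpen U) (hf : ContinuousOn f S)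
    (h0 : ∀ᵐ y ∂μ, y ∈ S → f y = 0) (hx : x ∈ S) : f x = 0 := by
  by_contra hne
  have h1 := eventually_nhdsWithin_iff.1 ((hf x hx).eventually_ne hne)
  refine h.pos x hx _ (inter_mem h1 (hU.mem_nhds (h.sub hx))) (measure_eq_zero_iff_ae_notMem.2 ?_)
  filter_upwards [h0, measure_eq_zero_iff_ae_notMem.1 h.null] with y a b c
  have hy : y ∈ S := by_contra fun hy => b ⟨c.2, hy⟩
  exact c.1 hy (a hy)

theorem Stable.zero_of_int (h : Stable U S μ) (hU : IsOpen U) (hf : TS U S f)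
    (h0 : ∀ y ∈ S, 0 ≤ f y) (h1 : ∫ y in S, f y ∂μ = 0) (hx : x ∈ S) : f x = 0 := by
  refine h.zero_of_ae hU hf.sm.cont ?_ hx
  rw [← ae_restrict_iff' (h.meas hU)]
  exact (setIntegral_eq_zero_iff_of_nonneg_ae
    ((ae_restrict_iff' (h.meas hU)).2 (.of_forall h0)) (h.int hU hf)).1 h1

omit [MeasurableSpace E] [BorelSpace E] in
theorem exists_TS (hU : IsOpen U) (hx : x ∈ U) : ∃ ψ, TS U S ψ ∧ ψ x = 1 := by
  obtain ⟨ψ, a, b, c, -, d⟩ := exists_contDiff_tsupport_subset (n := (⊤ : ℕ∞)) (hU.mem_nhds hx)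
  exact ⟨ψ, ⟨.of_smAt fun y _ => .of_forall fun _ => c.contDiffAt, _, b, a,
    fun y _ hy => image_eq_zero_of_notMem_tsupport hy⟩, d⟩

omit [MeasurableSpace E] [BorelSpace E] in
theorem sum_Pc (S : Set E) (f : E → ℝ) (j : Fin (Module.finrank ℝ E)) (y : E) :
    ∑ i, del S f (bs E i) y * Pc S i j y = del S f (bs E j) y := by
  have := sum_bs ((fderivWithin ℝ f S y).comp (prj S y)) (prj S y (bs E j))
  simp only [ContinuousLinearMap.comp_apply] at this
  rw [show prj S y (prj S y (bs E j)) = prj S y (bs E j) from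
    Submodule.starProjection_eq_self_iff.2 (prj_mem _ _ _)] at this
  simp only [del, Pc, mul_comm (fderivWithin ℝ f S y _), this]

/-- a stationary measure lives on a minimal hypersurface -/
theorem Stable.minimal (h : Stable U S μ) (hU : IsOpen U) (j : Fin (Module.finrank ℝ E))
    (hx : x ∈ S) : mc S j x = 0 := by
  obtain ⟨ψ, hψ, e⟩ := exists_TS (S := S) hU (h.sub hx)
  have hm : Sm S (mc S j) := Sm.sum _ fun i => (sm_Pc h.reg i j).del h.reg i
  have hφ := hψ.sq.mul hm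
  have h1 : ∫ y in S, ψ y ^ 2 * mc S j y * mc S j y ∂μ = 0 := by
    have h2 : ∀ y ∈ S, ψ y ^ 2 * mc S j y * mc S j y
        = ∑ i, del S (fun y => ψ y ^ 2 * mc S j y * Pc S i j y) (bs E i) y
          - del S (fun y => ψ y ^ 2 * mc S j y) (bs E j) y := fun y hy => by
      simp only [fun i => del_mul hφ.sm (sm_Pc h.reg i j) hy, Finset.sum_add_distrib, sum_Pc,
        ← Finset.mul_sum]
      rw [add_sub_cancel_left]; rfl
    rw [setIntegral_congr_fun (h.meas hU) h2, integral_sub, integral_finsetSum, h.var' hU hφ]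
    · simp only [fun i => h.var' hU (hφ.mul (sm_Pc h.reg i j)), Finset.sum_const_zero, sub_zero]
    · exact fun i _ => h.int hU ((hφ.mul (sm_Pc h.reg i j)).del h.reg i)
    · exact h.int hU (TS.sum _ fun i => (hφ.mul (sm_Pc h.reg i j)).del h.reg i)
    · exact h.int hU (hφ.del h.reg j)
  have := h.zero_of_int hU (hφ.mul hm) (fun y _ => by
    rw [mul_assoc]; exact mul_nonneg (sq_nonneg _) (mul_self_nonneg _)) h1 hx
  simpa [e] using this

/-- the Hardy type inequality; `w = 1 / r ^ 2` -/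
theorem Stable.hardy (h : Stable U S μ) (hU : IsOpen U) {w ψ : E → ℝ} (hw : Sm S w)
    (hs : ∀ x ∈ S, ∃ T : ℝ, 0 ≤ T ∧
      ∑ k, del S (del S (c2 S) (bs E k)) (bs E k) x = 2 * (T - c2 S x ^ 2 + 2 * c2 S x * w x) ∧
      ∑ k, del S (c2 S) (bs E k) x ^ 2 ≤ 4 * (c2 S x * T)) (hψ : TS U S ψ) :
    2 * ∫ y in S, ψ y ^ 2 * (c2 S y * w y) ∂μ
      ≤ ∫ y in S, c2 S y * ∑ k, del S ψ (bs E k) y ^ 2 ∂μ := by
  have hu := sm_c2 h.reg
  have t1 : TS U S fun y => ∑ k, del S ψ (bs E k) y ^ 2 := TS.sum _ fun k => (hψ.del h.reg k).sq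
  have t2 : ∀ k, TS U S fun y => ψ y ^ 2 * del S (c2 S) (bs E k) y :=
    fun k => hψ.sq.mul (hu.del h.reg k)
  have t3 := hψ.sq.mul (hu.mul hw)
  have t4 := hψ.sq.mul (hu.mul hu)
  have key : ∀ ε : ℝ, 0 < ε → 2 * ∫ y in S, ψ y ^ 2 * (c2 S y * w y) ∂μ
      ≤ ∫ y in S, c2 S y * ∑ k, del S ψ (bs E k) y ^ 2 ∂μ
        + ε * ∫ y in S, ∑ k, del S ψ (bs E k) y ^ 2 ∂μ := fun ε hε => by
    have p : ∀ y, 0 < c2 S y + ε := fun y => add_pos_of_nonneg_of_pos (c2_nonneg S y) hε
    have s1 : Sm S fun y => √(c2 S y + ε) := hu.comp (φ := fun t => √(t + ε)) fun y _ => by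
      have : ∀ᶠ t in 𝓝 (c2 S y), t + ε ≠ 0 :=
        (continuousAt_id.add continuousAt_const).eventually_ne (p y).ne'
      exact this.mono fun t ht => (contDiffAt_id.add contDiffAt_const).sqrt ht
    have st := h.stab' hU (hψ.mul s1)
    have pt : ∀ y ∈ S, ∑ k, del S (fun y => ψ y * √(c2 S y + ε)) (bs E k) y ^ 2
        ≤ c2 S y * ∑ k, del S ψ (bs E k) y ^ 2 + ε * ∑ k, del S ψ (bs E k) y ^ 2
          + (1 / 2) * ∑ k, del S (fun y => ψ y ^ 2 * del S (c2 S) (bs E k) y) (bs E k) y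
          + ψ y ^ 2 * (c2 S y * c2 S y) - 2 * (ψ y ^ 2 * (c2 S y * w y)) := fun y hy => by
      obtain ⟨T, hT, e1, e2⟩ := hs y hy
      have q := Real.sqrt_pos.2 (p y)
      have q2 := Real.sq_sqrt (p y).le
      have d1 : ∀ k, del S (fun y => ψ y * √(c2 S y + ε)) (bs E k) y ^ 2
          = (c2 S y + ε) * del S ψ (bs E k) y ^ 2
            + ψ y * (del S ψ (bs E k) y * del S (c2 S) (bs E k) y)
            + ψ y ^ 2 / (4 * (c2 S y + ε)) * del S (c2 S) (bs E k) y ^ 2 := fun k => by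
        rw [del_mul hψ.sm s1 hy, del_comp (φ := fun t => √(t + ε)) hu hy
          (((hasDerivAt_id _).add_const ε).sqrt (p y).ne')]
        simp only [id]
        generalize √(c2 S y + ε) = s at q q2
        rw [← q2]
        field_simp
        ring
      have d2 : ∀ k, del S (fun y => ψ y ^ 2 * del S (c2 S) (bs E k) y) (bs E k) y
          = 2 * (ψ y * (del S ψ (bs E k) y * del S (c2 S) (bs E k) y))
            + ψ y ^ 2 * del S (del S (c2 S) (bs E k)) (bs E k) y := fun k => by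
        rw [del_mul hψ.sq.sm (hu.del h.reg k) hy, del_comp (φ := fun t => t ^ 2) hψ.sm hy
          (hasDerivAt_pow 2 _)]
        simp only [Nat.cast_ofNat, Nat.add_one_sub_one, pow_one]
        ring
      have d3 : ψ y ^ 2 / (4 * (c2 S y + ε)) * ∑ k, del S (c2 S) (bs E k) y ^ 2
          ≤ ψ y ^ 2 * T := by
        have := p y
        rw [div_mul_eq_mul_div, div_le_iff₀ (by positivity), mul_assoc]
        refine mul_le_mul_of_nonneg_left (e2.trans ?_) (sq_nonneg _)
        nlinarith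
      simp only [d1, d2, Finset.sum_add_distrib, ← Finset.mul_sum, e1]
      nlinarith
    have i1 := h.int hU (t1.mul' hu)
    have i2 := (h.int hU t1).const_mul ε
    have i3 := (h.int hU (TS.sum Finset.univ fun k => (t2 k).del h.reg k)).const_mul (1 / 2)
    have i4 := h.int hU t4
    have i5 := (h.int hU t3).const_mul 2
    have up := integral_mono_ae
      (h.int hU (TS.sum Finset.univ fun k => ((hψ.mul s1).del h.reg k).sq))
      ((((i1.add i2).add i3).add i4).sub i5)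
      ((ae_restrict_iff' (h.meas hU)).2 (.of_forall pt))
    have lo : ∫ y in S, ψ y ^ 2 * (c2 S y * c2 S y) ∂μ
        ≤ ∫ y in S, c2 S y * (ψ y * √(c2 S y + ε)) ^ 2 ∂μ := by
      refine setIntegral_mono_on i4 (h.int hU ((hψ.mul s1).sq.mul' hu)) (h.meas hU) fun y _ => ?_
      rw [mul_pow, Real.sq_sqrt (p y).le]
      have := mul_nonneg (mul_nonneg (c2_nonneg S y) (sq_nonneg (ψ y))) hε.le
      nlinarith
    rw [integral_sub' (((i1.add i2).add i3).add i4) i5, integral_add' ((i1.add i2).add i3) i4,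
      integral_add' (i1.add i2) i3, integral_add' i1 i2, integral_const_mul, integral_const_mul,
      integral_const_mul, integral_finsetSum _ fun k _ => h.int hU ((t2 k).del h.reg k)] at up
    simp only [fun k => h.var' hU (t2 k), Finset.sum_const_zero] at up
    linarith
  refine le_of_forall_pos_le_add fun δ hδ => ?_
  set I := ∫ y in S, ∑ k, del S ψ (bs E k) y ^ 2 ∂μ
  refine (key (δ / (|I| + 1)) (by positivity)).trans (add_le_add le_rfl ?_)
  rw [div_mul_eq_mul_div, div_le_iff₀ (by positivity)]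
  have := le_abs_self I
  nlinarith

end Vale.Agent.P366S
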