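import Mathlib

/-!
# P366S: the identity of Simons in a commutative ring with commuting derivations
-/

open Finset

namespace Vale.Agent.P366S

/-- commuting derivations, a function `F` with gradient `s * n`, and `n` a unit vector -/
structure Dat (ι R : Type) [Fintype ι] [CommRing R] where
  p : ι → R →+ R
  n : ι → R
  F : R
  s : R
  q : R
  hf : R
  lb : ∀ i f g, p i (f * g) = p i f * g + f * p i g
  cm : ∀ i j f, p i (p j f) = p j (p i f)
  un : ∑ i, n i * n i = 1
  gr : ∀ j, p j F = s * n j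
  qs : q * s = 1
  two : 2 * hf = 1

namespace Dat

variable {ι R : Type} [Fintype ι] [CommRing R] (D : Dat ι R)

/-- the normal derivative -/
def nr (f : R) : R := ∑ l, D.n l * D.p l f

/-- the tangential derivatives -/
def d (i : ι) : R →+ R :=
  AddMonoidHom.mk' (fun f => D.p i f - D.n i * D.nr f) (by
    intro f g
    simp only [nr, map_add, mul_add, sum_add_distrib]
    ring)

theorem d_def (i : ι) (f : R) : D.d i f = D.p i f - D.n i * D.nr f := rfl

theorem nr_mul (f g : R) : D.nr (f * g) = D.nr f * g + f * D.nr g := by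
  simp only [nr, D.lb, mul_add, sum_add_distrib, sum_mul, mul_sum]
  congr 1 <;> exact sum_congr rfl fun l _ => by ring

theorem d_mul (i : ι) (f g : R) : D.d i (f * g) = D.d i f * g + f * D.d i g := by
  simp only [d_def, D.lb, nr_mul]; ring

theorem d_one (i : ι) : D.d i 1 = 0 := by
  have h := D.d_mul i 1 1
  simp only [mul_one, one_mul] at h
  linear_combination -h

include D in
theorem half {a : R} (h : 2 * a = 0) : a = 0 := by
  linear_combination D.hf * h - a * D.two

theorem nd (f : R) : ∑ i, D.n i * D.d i f = 0 := by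
  have : ∑ i, D.n i * D.d i f = D.nr f - (∑ i, D.n i * D.n i) * D.nr f := by
    simp only [d_def, mul_sub, sum_sub_distrib, sum_mul, mul_assoc]; rfl
  rw [this, D.un]; ring

/-- the second fundamental form -/
def A (i j : ι) : R := D.d i (D.n j)

theorem An (i : ι) : ∑ j, D.A i j * D.n j = 0 := by
  apply D.half
  have h := congrArg (D.d i) D.un
  rw [map_sum, d_one] at h
  rw [← h, mul_sum]
  exact sum_congr rfl fun j _ => by rw [d_mul, A]; ring

theorem nA (j : ι) : ∑ i, D.n i * D.A i j = 0 := D.nd _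

/-- the doubly projected Hessian -/
def hs (i j : ι) (f : R) : R := D.d i (D.p j f) - D.n j * ∑ l, D.n l * D.d i (D.p l f)

theorem hs_eq (i j : ι) (f : R) : D.hs i j f = D.p i (D.p j f)
    - D.n i * ∑ l, D.n l * D.p l (D.p j f) - D.n j * ∑ l, D.n l * D.p l (D.p i f)
    + D.n i * D.n j * ∑ l, ∑ m, D.n l * D.n m * D.p m (D.p l f) := by
  have h1 : ∑ l, D.n l * D.d i (D.p l f) = ∑ l, D.n l * D.p l (D.p i f)
      - D.n i * ∑ l, ∑ m, D.n l * D.n m * D.p m (D.p l f) := by
    rw [mul_sum, ← sum_sub_distrib]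
    refine sum_congr rfl fun l _ => ?_
    rw [d_def, D.cm i l, nr, mul_sub, mul_sum, mul_sum, mul_sum]
    congr 1
    exact sum_congr rfl fun m _ => by ring
  rw [hs, h1, d_def, nr]; ring

theorem hs_sym (i j : ι) (f : R) : D.hs i j f = D.hs j i f := by
  rw [hs_eq, hs_eq, D.cm i j]; ring

theorem A_eq (i j : ι) : D.A i j = D.q * D.hs i j D.F := by
  have h1 : ∀ l, D.d i (D.p l D.F) = D.d i D.s * D.n l + D.s * D.A i l := fun l => by
    rw [D.gr, d_mul, A]
  have h2 : ∑ l, D.n l * D.d i (D.p l D.F)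
      = D.d i D.s * ∑ l, D.n l * D.n l + D.s * ∑ l, D.A i l * D.n l := by
    rw [mul_sum, mul_sum, ← sum_add_distrib]
    exact sum_congr rfl fun l _ => by rw [h1]; ring
  rw [hs, h2, h1, D.un, An]
  linear_combination (-D.A i j) * D.qs

theorem A_sym (i j : ι) : D.A i j = D.A j i := by rw [A_eq, A_eq, hs_sym]

theorem Ap (k : ι) (f : R) : ∑ l, D.A k l * D.p l f = ∑ l, D.A k l * D.d l f := by
  have : ∑ l, D.A k l * D.d l f
      = ∑ l, D.A k l * D.p l f - (∑ l, D.A k l * D.n l) * D.nr f := by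
    rw [sum_mul, ← sum_sub_distrib]
    exact sum_congr rfl fun l _ => by rw [d_def]; ring
  rw [this, An]; ring

theorem dd (k i : ι) (f : R) : D.d k (D.d i f)
    = D.hs k i f - D.A k i * D.nr f - D.n i * ∑ l, D.A k l * D.d l f := by
  have h1 : D.d k (D.nr f) = ∑ l, D.A k l * D.p l f + ∑ l, D.n l * D.d k (D.p l f) := by
    rw [nr, map_sum, ← sum_add_distrib]
    exact sum_congr rfl fun l _ => by rw [d_mul, A]
  rw [d_def D i f, map_sub, d_mul, h1, Ap, hs, A]; ring

theorem comm (k i : ι) (f : R) : D.d k (D.d i f) = D.d i (D.d k f)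
    + D.n k * ∑ l, D.A i l * D.d l f - D.n i * ∑ l, D.A k l * D.d l f := by
  rw [dd, dd, hs_sym D k i, A_sym D k i]; ring

/-- the square of `A` -/
def B (i j : ι) : R := ∑ l, D.A i l * D.A l j

theorem B_sym (i j : ι) : D.B i j = D.B j i :=
  sum_congr rfl fun l _ => by rw [A_sym D i l, A_sym D l j]; ring

theorem Bn (i : ι) : ∑ j, D.B i j * D.n j = 0 := by
  simp only [B, sum_mul]
  rw [sum_comm]
  refine sum_eq_zero fun l _ => ?_
  simp only [mul_assoc]
  rw [← mul_sum, An, mul_zero]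

/-- the mean curvature -/
def H : R := ∑ k, D.A k k

/-- the squared norm of `A` -/
def C : R := ∑ i, ∑ j, D.A i j * D.A i j

theorem trB : ∑ k, D.B k k = D.C :=
  sum_congr rfl fun k _ => sum_congr rfl fun l _ => by rw [A_sym D l k]

theorem cod (k i j : ι) :
    D.d k (D.A i j) = D.d i (D.A k j) + D.n k * D.B i j - D.n i * D.B k j :=
  D.comm k i (D.n j)

theorem dAn (k i : ι) : ∑ j, D.d k (D.A i j) * D.n j = - D.B k i := by
  have h := congrArg (D.d k) (D.An i)
  rw [map_sum, map_zero] at h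
  have h2 : ∑ j, D.d k (D.A i j * D.n j) = ∑ j, D.d k (D.A i j) * D.n j + D.B k i := by
    rw [B, ← sum_add_distrib]
    exact sum_congr rfl fun j _ => by
      rw [d_mul, A_sym D j i, show D.d k (D.n j) = D.A k j from rfl]; ring
  linear_combination h - h2

theorem divA (j : ι) : ∑ k, D.d k (D.A k j) = D.d j D.H - D.n j * D.C := by
  have h1 : ∀ k, D.d k (D.A k j) = D.d j (D.A k k) + D.B j k * D.n k - D.n j * D.B k k :=
    fun k => by rw [A_sym D k j, cod]; ring
  simp only [h1, sum_sub_distrib, sum_add_distrib, ← mul_sum]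
  rw [Bn, trB, H, map_sum]; ring

theorem lapA (i j : ι) : ∑ k, D.d k (D.d k (D.A i j)) = D.d i (D.d j D.H) - D.C * D.A i j
    - 2 * ∑ l, D.A i l * D.B l j + D.H * D.B i j - D.n j * D.d i D.C
    - D.n i * (∑ k, D.d k (D.B k j) + ∑ k, ∑ l, D.A k l * D.d l (D.A k j)) := by
  have h1 : ∀ k, D.d k (D.d k (D.A i j)) = D.d i (D.d k (D.A k j))
      + D.n k * ∑ l, D.A i l * D.d l (D.A k j) - D.n i * ∑ l, D.A k l * D.d l (D.A k j)
      + D.A k k * D.B i j + D.n k * D.d k (D.B i j) - D.A i k * D.B k j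
      - D.n i * D.d k (D.B k j) := fun k => by
    rw [cod D k i j, map_sub, map_add, d_mul, d_mul, comm D k i, A_sym D i k,
      show D.d k (D.n k) = D.A k k from rfl, show D.d k (D.n i) = D.A k i from rfl]
    ring
  have h2 : ∑ k, D.n k * ∑ l, D.A i l * D.d l (D.A k j) = - ∑ l, D.A i l * D.B l j := by
    simp only [mul_sum]
    rw [sum_comm, ← sum_neg_distrib]
    refine sum_congr rfl fun l _ => ?_
    have : ∑ k, D.n k * (D.A i l * D.d l (D.A k j))
        = D.A i l * ∑ k, D.d l (D.A j k) * D.n k := by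
      rw [mul_sum]
      exact sum_congr rfl fun k _ => by rw [A_sym D j k]; ring
    rw [this, dAn]; ring
  have h3 : ∑ k, D.d i (D.d k (D.A k j))
      = D.d i (D.d j D.H) - D.A i j * D.C - D.n j * D.d i D.C := by
    rw [← map_sum, divA, map_sub, d_mul, show D.d i (D.n j) = D.A i j from rfl]; ring
  simp only [h1, sum_sub_distrib, sum_add_distrib]
  rw [h2, h3, nd, ← sum_mul, ← mul_sum, ← mul_sum, H]
  ring

theorem dC (k : ι) : D.d k D.C = 2 * ∑ i, ∑ j, D.A i j * D.d k (D.A i j) := by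
  simp only [C, map_sum, mul_sum]
  exact sum_congr rfl fun i _ => sum_congr rfl fun j _ => by rw [d_mul]; ring

theorem AAB : ∑ i, ∑ j, D.A i j * ∑ l, D.A i l * D.B l j = ∑ i, ∑ j, D.B i j * D.B i j := by
  have h : ∀ j, ∑ i, D.A i j * ∑ l, D.A i l * D.B l j = ∑ l, D.B l j * D.B l j := fun j => by
    simp only [mul_sum]
    rw [sum_comm]
    refine sum_congr rfl fun l _ => ?_
    conv_rhs => rw [B, sum_mul]
    refine sum_congr rfl fun i _ => ?_
    rw [A_sym D l i, show D.B l j = ∑ m, D.A l m * D.A m j from rfl]; ring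
  rw [sum_comm]
  simp only [h]
  rw [sum_comm]

/-- the identity of Simons -/
theorem simons : ∑ k, D.d k (D.d k D.C) = 2 * (∑ i, ∑ j, D.A i j * D.d i (D.d j D.H)
    - D.C * D.C - 2 * ∑ i, ∑ j, D.B i j * D.B i j + D.H * ∑ i, ∑ j, D.A i j * D.B i j
    + ∑ k, ∑ i, ∑ j, D.d k (D.A i j) * D.d k (D.A i j)) := by
  have h0 : ∀ k, D.d k (2 : R) = 0 := fun k => by
    rw [show (2 : R) = 1 + 1 by norm_num, map_add, d_one, add_zero]
  have h1 : ∀ k, D.d k (D.d k D.C) = 2 * (∑ i, ∑ j, D.A i j * D.d k (D.d k (D.A i j))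
      + ∑ i, ∑ j, D.d k (D.A i j) * D.d k (D.A i j)) := fun k => by
    rw [dC, d_mul, h0, zero_mul, zero_add, map_sum, ← sum_add_distrib]
    congr 1
    refine sum_congr rfl fun i _ => ?_
    rw [map_sum, ← sum_add_distrib]
    exact sum_congr rfl fun j _ => by rw [d_mul]; ring
  have h2 : ∑ k, ∑ i, ∑ j, D.A i j * D.d k (D.d k (D.A i j))
      = ∑ i, ∑ j, D.A i j * ∑ k, D.d k (D.d k (D.A i j)) := by
    rw [sum_comm]
    refine sum_congr rfl fun i _ => ?_
    rw [sum_comm]
    exact sum_congr rfl fun j _ => by rw [mul_sum]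
  have h3 : ∑ i, ∑ j, D.A i j * (D.n j * D.d i D.C) = 0 := sum_eq_zero fun i _ => by
    simp only [← mul_assoc]
    rw [← sum_mul, An, zero_mul]
  have h4 : ∀ W : ι → R, ∑ i, ∑ j, D.A i j * (D.n i * W j) = 0 := fun W => by
    rw [sum_comm]
    refine sum_eq_zero fun j _ => ?_
    have : ∑ i, D.A i j * (D.n i * W j) = (∑ i, D.n i * D.A i j) * W j := by
      rw [sum_mul]
      exact sum_congr rfl fun i _ => by ring
    rw [this, nA, zero_mul]
  have h5 : ∑ i, ∑ j, D.A i j * (D.C * D.A i j) = D.C * D.C := by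
    conv_rhs => rw [show D.C * D.C = D.C * ∑ i, ∑ j, D.A i j * D.A i j from rfl]
    simp only [mul_sum]
    exact sum_congr rfl fun i _ => sum_congr rfl fun j _ => by ring
  have h6 : ∑ i, ∑ j, D.A i j * (D.H * D.B i j) = D.H * ∑ i, ∑ j, D.A i j * D.B i j := by
    simp only [mul_sum]
    exact sum_congr rfl fun i _ => sum_congr rfl fun j _ => by ring
  have h7 : ∑ i, ∑ j, D.A i j * (2 * ∑ l, D.A i l * D.B l j)
      = 2 * ∑ i, ∑ j, D.B i j * D.B i j := by
    rw [← AAB, mul_sum]
    refine sum_congr rfl fun i _ => ?_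
    rw [mul_sum]
    exact sum_congr rfl fun j _ => by ring
  simp only [h1, ← mul_sum, sum_add_distrib]
  rw [h2]
  simp only [lapA, mul_sub, mul_add (D.A _ _), sum_sub_distrib, sum_add_distrib]
  rw [h3, h4, h5, h6, h7]
  ring

variable [DecidableEq ι]

/-- the components of the tangential projection -/
def P (i j : ι) : R := (if i = j then 1 else 0) - D.n i * D.n j

theorem dP (k i j : ι) : D.d k (D.P i j) = - (D.A k i * D.n j + D.n i * D.A k j) := by
  have : D.d k (if i = j then 1 else 0) = 0 := by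
    split_ifs
    · exact D.d_one k
    · exact map_zero _
  rw [P, map_sub, this, d_mul]; simp only [A]; ring

theorem sqP : ∑ k, ∑ i, ∑ j, D.d k (D.P i j) ^ 2 = 2 * D.C := by
  rw [C, mul_sum]
  refine sum_congr rfl fun k _ => ?_
  have : ∀ i j, D.d k (D.P i j) ^ 2 = D.A k i * D.A k i * (D.n j * D.n j)
      + D.n i * D.n i * (D.A k j * D.A k j) + 2 * (D.A k i * D.n i) * (D.A k j * D.n j) :=
    fun i j => by rw [dP]; ring
  simp only [this, sum_add_distrib, ← mul_sum, ← sum_mul, D.un, An]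
  ring

theorem divP (j : ι) : ∑ i, D.d i (D.P i j) = - (D.H * D.n j) := by
  simp only [dP, neg_add, sum_add_distrib, sum_neg_distrib, ← sum_mul, nA, H]
  ring

theorem dX {X : ι → R} (hX : ∀ k j, D.p k (X j) = if k = j then 1 else 0) (k j : ι) :
    D.d k (X j) = D.P k j := by
  rw [d_def, nr, P, hX]
  simp only [hX, mul_ite, mul_one, mul_zero, sum_ite_eq', mem_univ, if_true]

theorem dnX {X : ι → R} (hX : ∀ k j, D.p k (X j) = if k = j then 1 else 0) (k : ι) :
    D.d k (∑ j, D.n j * X j) = ∑ j, D.A k j * X j := by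
  have : ∀ j, D.d k (D.n j * X j) = D.A k j * X j + D.n j * (if k = j then 1 else 0)
      - D.n k * (D.n j * D.n j) := fun j => by
    rw [d_mul, dX D hX, P, A]; ring
  simp only [map_sum, this, sum_sub_distrib, sum_add_distrib, ← mul_sum, D.un, mul_ite, mul_one,
    mul_zero, sum_ite_eq, mem_univ, if_true]
  ring

theorem dAX {X : ι → R} (hX : ∀ k j, D.p k (X j) = if k = j then 1 else 0) (k i : ι) :
    D.d k (∑ j, D.A i j * X j) = ∑ j, D.d k (D.A i j) * X j + D.A k i := by
  have : ∀ j, D.d k (D.A i j * X j) = D.d k (D.A i j) * X j + D.A i j * (if k = j then 1 else 0)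
      - D.n k * (D.A i j * D.n j) := fun j => by
    rw [d_mul, dX D hX, P]; ring
  simp only [map_sum, this, sum_sub_distrib, sum_add_distrib, ← mul_sum, An, mul_ite, mul_one,
    mul_zero, sum_ite_eq, mem_univ, if_true, A_sym D k i]
  ring

end Dat

/-- the refined Kato inequality for cones -/
theorem kato {ι : Type} [Fintype ι] (n X : ι → ℝ) (A B : ι → ι → ℝ) (D : ι → ι → ι → ℝ) (r : ℝ)
    (hr : 0 < r) (hn : ∑ i, n i * n i = 1) (hX : ∑ i, X i * X i = r) (hnX : ∑ i, n i * X i = 0)
    (hAn : ∀ i, ∑ j, A i j * n j = 0) (hAX : ∀ i, ∑ j, A i j * X j = 0)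
    (hBn : ∀ i, ∑ j, B i j * n j = 0) (hBX : ∀ i, ∑ j, B i j * X j = 0)
    (hD : ∀ k i j, D k i j = D k j i) (hDn : ∀ k i, ∑ j, D k i j * n j = - B k i)
    (hDX : ∀ k i, ∑ j, D k i j * X j = - A k i) (hA : ∀ i j, A i j = A j i) :
    ∃ T : ℝ, 0 ≤ T ∧ ∑ k, ∑ i, ∑ j, D k i j * D k i j
      = T + 2 * ∑ i, ∑ j, B i j * B i j + 2 * (∑ i, ∑ j, A i j * A i j) / r ∧
      ∑ k, (∑ i, ∑ j, A i j * D k i j) ^ 2 ≤ (∑ i, ∑ j, A i j * A i j) * T := by
  set W : ι → ι → ι → ℝ := fun k i j => n j * B k i + X j * A k i / r with hW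
  set D' : ι → ι → ι → ℝ := fun k i j => D k i j + W k i j + W k j i with hD'
  have hr' := hr.ne'
  have a1 : ∀ k i, ∑ j, D k i j * W k i j = - (B k i * B k i + A k i * A k i / r) := fun k i => by
    have : ∀ j, D k i j * W k i j = D k i j * n j * B k i + D k i j * X j * (A k i / r) :=
      fun j => by simp only [hW]; ring
    simp only [this, sum_add_distrib, ← sum_mul, hDn, hDX]; ring
  have a2 : ∀ k i, ∑ j, W k i j * W k i j = B k i * B k i + A k i * A k i / r := fun k i => by
    have : ∀ j, W k i j * W k i j = n j * n j * (B k i * B k i)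
        + X j * X j * (A k i * A k i / r ^ 2) + n j * X j * (2 * B k i * A k i / r) :=
      fun j => by simp only [hW]; ring
    simp only [this, sum_add_distrib, ← sum_mul, hn, hX, hnX]; field_simp; ring
  have a3 : ∀ k, ∑ i, ∑ j, W k i j * W k j i = 0 := fun k => by
    have : ∀ i j, W k i j * W k j i = B k i * n i * (B k j * n j)
        + B k i * X i * (A k j * n j / r) + A k i * n i * (B k j * X j / r)
        + A k i * X i * (A k j * X j / r ^ 2) := fun i j => by simp only [hW]; ring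
    simp only [this, sum_add_distrib, ← mul_sum, ← sum_mul, hBn, hBX, hAn, hAX]; ring
  have a4 : ∀ k, ∑ i, ∑ j, A i j * W k i j = 0 := fun k => sum_eq_zero fun i _ => by
    have : ∀ j, A i j * W k i j = A i j * n j * B k i + A i j * X j * (A k i / r) :=
      fun j => by simp only [hW]; ring
    simp only [this, sum_add_distrib, ← sum_mul, hAn, hAX]; ring
  have a5 : ∀ k, ∑ i, ∑ j, A i j * W k j i = 0 := fun k => by
    rw [sum_comm, ← a4 k]
    exact sum_congr rfl fun i _ => sum_congr rfl fun j _ => by rw [hA]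
  have a6 : ∀ k, ∑ i, ∑ j, D k i j * W k j i = ∑ i, ∑ j, D k i j * W k i j := fun k => by
    rw [sum_comm]
    exact sum_congr rfl fun i _ => sum_congr rfl fun j _ => by rw [hD]
  have a7 : ∀ k, ∑ i, ∑ j, W k j i * W k j i = ∑ i, ∑ j, W k i j * W k i j := fun k => sum_comm
  have b1 : ∀ k, ∑ i, ∑ j, D' k i j * D' k i j = ∑ i, ∑ j, D k i j * D k i j
      - 2 * ∑ i, B k i * B k i - 2 * (∑ i, A k i * A k i) / r := fun k => by
    have : ∀ i j, D' k i j * D' k i j = D k i j * D k i j + W k i j * W k i j + W k j i * W k j i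
        + 2 * (D k i j * W k i j) + 2 * (D k i j * W k j i) + 2 * (W k i j * W k j i) :=
      fun i j => by simp only [hD']; ring
    simp only [this, sum_add_distrib, ← mul_sum]
    rw [a3, a6, a7]
    simp only [a1, a2, sum_neg_distrib, sum_add_distrib, ← sum_div]
    ring
  have b2 : ∀ k, ∑ i, ∑ j, A i j * D k i j = ∑ i, ∑ j, A i j * D' k i j := fun k => by
    simp only [hD', mul_add, sum_add_distrib, a4, a5, add_zero]
  refine ⟨∑ k, ∑ i, ∑ j, D' k i j * D' k i j, ?_, ?_, ?_⟩
  · exact sum_nonneg fun k _ => sum_nonneg fun i _ => sum_nonneg fun j _ => mul_self_nonneg _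
  · simp only [b1, sum_sub_distrib, ← mul_sum, ← sum_div]; ring
  · rw [mul_sum]
    refine sum_le_sum fun k _ => ?_
    rw [b2, ← sum_product', ← sum_product', ← sum_product']
    have := sum_mul_sq_le_sq_mul_sq (univ ×ˢ univ) (fun p : ι × ι => A p.1 p.2)
      (fun p : ι × ι => D' k p.1 p.2)
    simpa only [sq] using this

end Vale.Agent.P366S
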