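import Mathlib

/-!
# P366S: stable minimal cones with a spine (the theorem of Simons), definitions

`E` is a Euclidean space, `S` a subset which is locally a regular level set.  All objects are
defined from the set `S` alone: no orientation is chosen.
-/

open MeasureTheory Set Filter Topology
open scoped ContDiff InnerProductSpace

noncomputable section

namespace Vale.Agent.P366S

variable {E : Type} [NormedAddCommGroup E] [InnerProductSpace ℝ E] [FiniteDimensional ℝ E]

/-- the tangent space of `S` at `x` -/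
def tsp (S : Set E) (x : E) : Submodule ℝ E := Submodule.span ℝ (tangentConeAt ℝ S x)

/-- the orthogonal projection onto the tangent space -/
def prj (S : Set E) (x : E) : E →L[ℝ] E := (tsp S x).starProjection

/-- the derivative along `S` of a function on `S`, in the direction of the projection of `v` -/
def del (S : Set E) (f : E → ℝ) (v : E) (x : E) : ℝ := fderivWithin ℝ f S x (prj S x v)

/-- the standard orthonormal basis -/
abbrev bs (E : Type) [NormedAddCommGroup E] [InnerProductSpace ℝ E] [FiniteDimensional ℝ E] :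
    OrthonormalBasis (Fin (Module.finrank ℝ E)) ℝ E := stdOrthonormalBasis ℝ E

/-- the squared norm of the second fundamental form -/
def c2 (S : Set E) (x : E) : ℝ :=
  (∑ k, ∑ i, ∑ j, del S (fun y => ⟪bs E i, prj S y (bs E j)⟫_ℝ) (bs E k) x ^ 2) / 2

/-- near `x`, the set `S` is the regular zero set of the smooth function `F` -/
structure Lev (S : Set E) (F : E → ℝ) (x : E) : Prop where
  sm : ∀ᶠ y in 𝓝 x, ContDiffAt ℝ ∞ F y
  ne : fderiv ℝ F x ≠ 0
  mem : ∀ᶠ y in 𝓝 x, y ∈ S ↔ F y = 0

/-- smooth test functions with compact support in `U` -/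
structure Test (U : Set E) (φ : E → ℝ) : Prop where
  sm : ContDiff ℝ ∞ φ
  cs : HasCompactSupport φ
  sub : tsupport φ ⊆ U

variable [MeasurableSpace E] [BorelSpace E]

/-- `S` is a smooth stable minimal hypersurface in the open set `U`, and `μ` is a stationary
measure on it -/
structure Stable (U S : Set E) (μ : Measure E) : Prop where
  sub : S ⊆ U
  reg : ∀ x ∈ S, ∃ F, Lev S F x
  cl : closure S ∩ U ⊆ S
  null : μ (U \ S) = 0
  pos : ∀ x ∈ S, ∀ W ∈ 𝓝 x, μ W ≠ 0
  fin : ∀ K, IsCompact K → μ K < ⊤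
  var : ∀ φ, Test U φ → ∀ v, ∫ x, fderiv ℝ φ x (prj S x v) ∂μ = 0
  stab : ∀ φ, Test U φ →
    ∫ x, c2 S x * φ x ^ 2 ∂μ ≤ ∫ x, ‖(fderiv ℝ φ x).comp (prj S x)‖ ^ 2 ∂μ

/-- `S` and `μ` are invariant under the dilations and the translations by vectors of `V` -/
structure Cone (V : Submodule ℝ E) (S : Set E) (μ : Measure E) : Prop where
  tr : ∀ v ∈ V, ∀ x ∈ S, x + v ∈ S
  dil : ∀ t : ℝ, 0 < t → ∀ x ∈ S, t • x ∈ S
  mtr : ∀ v ∈ V, μ.map (fun x => x + v) = μ
  mdil : ∀ t : ℝ, 0 < t →
    μ.map (fun x => t • x) = ENNReal.ofReal (t⁻¹ ^ (Module.finrank ℝ E - 1)) • μ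

/-- **SIMONS**: a stable minimal cone, smooth off a spine of codimension between three and seven,
lies in one hyperplane -/
def SIMONS : Prop := ∀ (E : Type) [NormedAddCommGroup E] [InnerProductSpace ℝ E]
  [FiniteDimensional ℝ E] [MeasurableSpace E] [BorelSpace E] (V : Submodule ℝ E) (S : Set E)
  (μ : Measure E), Module.finrank ℝ V + 3 ≤ Module.finrank ℝ E →
    Module.finrank ℝ E ≤ Module.finrank ℝ V + 7 → Stable (V : Set E)ᶜ S μ → Cone V S μ →
    ∃ e : E, ‖e‖ = 1 ∧ (∀ v ∈ V, ⟪e, v⟫_ℝ = 0) ∧ ∀ x ∈ S, ⟪e, x⟫_ℝ = 0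

end Vale.Agent.P366S
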