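import Vale.Agent.P366S.Geo
import Vale.Agent.P366S.Alg

/-!
# P366S: the ring of smooth germs and the local representation of functions on `S`
-/

open Set Filter Topology
open scoped ContDiff InnerProductSpace

noncomputable section

namespace Vale.Agent.P366S

variable {E : Type} [NormedAddCommGroup E] [InnerProductSpace ℝ E]
variable {S : Set E} {F f g : E → ℝ} {x : E}

/-- smooth near a point -/
def SmAt (g : E → ℝ) (x : E) : Prop := ∀ᶠ y in 𝓝 x, ContDiffAt ℝ ∞ g y

theorem SmAt.const (a : ℝ) (x : E) : SmAt (fun _ => a) x := .of_forall fun _ => contDiffAt_const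

theorem SmAt.add (hf : SmAt f x) (hg : SmAt g x) : SmAt (fun y => f y + g y) x :=
  (hf.and hg).mono fun _ h => h.1.add h.2

theorem SmAt.mul (hf : SmAt f x) (hg : SmAt g x) : SmAt (fun y => f y * g y) x :=
  (hf.and hg).mono fun _ h => h.1.mul h.2

theorem SmAt.neg (hf : SmAt f x) : SmAt (fun y => - f y) x := hf.mono fun _ h => h.neg

theorem SmAt.pd (hf : SmAt f x) (v : E) : SmAt (fun y => fderiv ℝ f y v) x :=
  hf.mono fun _ h => (h.fderiv_right (m := ∞) (by simp)).clm_apply contDiffAt_const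

theorem SmAt.diff (hf : SmAt f x) : ∀ᶠ y in 𝓝 x, DifferentiableAt ℝ f y :=
  hf.mono fun _ h => h.differentiableAt (by simp)

theorem SmAt.cont (hf : SmAt f x) : ContinuousAt f x := hf.self_of_nhds.continuousAt

theorem SmAt.comp {φ : ℝ → ℝ} (hf : SmAt f x) (hφ : ∀ᶠ t in 𝓝 (f x), ContDiffAt ℝ ∞ φ t) :
    SmAt (fun y => φ (f y)) x :=
  (hf.and (hf.cont.eventually hφ)).mono fun y h => h.2.comp y h.1

/-- the ring of smooth germs at `x` -/
def SG (x : E) : Subring (Germ (𝓝 x) ℝ) where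
  carrier := {G | ∃ g : E → ℝ, SmAt g x ∧ (g : Germ (𝓝 x) ℝ) = G}
  mul_mem' := by
    rintro _ _ ⟨f, hf, rfl⟩ ⟨g, hg, rfl⟩
    exact ⟨_, hf.mul hg, rfl⟩
  one_mem' := ⟨_, SmAt.const 1 x, rfl⟩
  add_mem' := by
    rintro _ _ ⟨f, hf, rfl⟩ ⟨g, hg, rfl⟩
    exact ⟨_, hf.add hg, rfl⟩
  zero_mem' := ⟨_, SmAt.const 0 x, rfl⟩
  neg_mem' := by
    rintro _ ⟨f, hf, rfl⟩
    exact ⟨_, hf.neg, rfl⟩

/-- the germ of a function -/
def gm (g : E → ℝ) (h : SmAt g x) : SG x := ⟨(g : Germ (𝓝 x) ℝ), g, h, rfl⟩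

theorem mk_surj (G : SG x) : ∃ g hg, G = gm g hg := by
  obtain ⟨_, g, hg, rfl⟩ := G
  exact ⟨g, hg, rfl⟩

theorem mk_eq {hf : SmAt f x} {hg : SmAt g x} (h : f =ᶠ[𝓝 x] g) : gm f hf = gm g hg :=
  Subtype.ext (Germ.coe_eq.2 h)

theorem mk_add (hf : SmAt f x) (hg : SmAt g x) : gm f hf + gm g hg = gm _ (hf.add hg) := rfl

theorem mk_mul (hf : SmAt f x) (hg : SmAt g x) : gm f hf * gm g hg = gm _ (hf.mul hg) := rfl

theorem mk_neg (hf : SmAt f x) : - gm f hf = gm _ hf.neg := rfl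

theorem mk_one : (1 : SG x) = gm _ (SmAt.const 1 x) := rfl

theorem mk_zero : (0 : SG x) = gm _ (SmAt.const 0 x) := rfl

theorem SmAt.sum {ι : Type} (s : Finset ι) {f : ι → E → ℝ} (hf : ∀ i, SmAt (f i) x) :
    SmAt (fun y => ∑ i ∈ s, f i y) x :=
  ((eventually_all_finset s).2 fun i _ => hf i).mono fun _ h => ContDiffAt.sum h

theorem mk_sum {ι : Type} (s : Finset ι) {f : ι → E → ℝ} (hf : ∀ i, SmAt (f i) x) :
    ∑ i ∈ s, gm (f i) (hf i) = gm _ (SmAt.sum s hf) := by
  classical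
  induction s using Finset.induction_on with
  | empty => rfl
  | insert a s ha ih =>
    rw [Finset.sum_insert ha, ih, mk_add]
    exact mk_eq (.of_forall fun y => by simp only [Finset.sum_insert ha])

/-- the directional derivative of a germ -/
def pd0 (v : E) : Germ (𝓝 x) ℝ → Germ (𝓝 x) ℝ :=
  Germ.map' (fun f y => fderiv ℝ f y v) fun _ _ h =>
    (EventuallyEq.fderiv (𝕜 := ℝ) h).mono fun _ hy => by simp only [hy]

/-- the directional derivative of a smooth germ -/
def pd1 (v : E) (G : SG x) : SG x := ⟨pd0 v G.1, by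
  obtain ⟨_, g, hg, rfl⟩ := G
  exact ⟨_, hg.pd v, rfl⟩⟩

theorem pd1_mk (v : E) (hg : SmAt g x) : pd1 v (gm g hg) = gm _ (hg.pd v) := rfl

/-- the directional derivative as an additive map -/
def pd (v : E) : SG x →+ SG x := AddMonoidHom.mk' (pd1 v) fun A B => by
  obtain ⟨f, hf, rfl⟩ := mk_surj A
  obtain ⟨g, hg, rfl⟩ := mk_surj B
  rw [mk_add, pd1_mk, pd1_mk, pd1_mk, mk_add]
  refine mk_eq ?_
  filter_upwards [hf.diff, hg.diff] with y a b
  rw [fderiv_fun_add a b]; rfl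

theorem pd_mk (v : E) (hg : SmAt g x) : pd v (gm g hg) = gm _ (hg.pd v) := rfl

theorem pd_mul (v : E) (A B : SG x) : pd v (A * B) = pd v A * B + A * pd v B := by
  obtain ⟨f, hf, rfl⟩ := mk_surj A
  obtain ⟨g, hg, rfl⟩ := mk_surj B
  simp only [mk_mul, pd_mk, mk_add]
  refine mk_eq ?_
  filter_upwards [hf.diff, hg.diff] with y a b
  rw [fderiv_fun_mul a b]
  simp only [add_apply, smul_apply, smul_eq_mul]
  ring

theorem pd_comm (v w : E) (A : SG x) : pd v (pd w A) = pd w (pd v A) := by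
  obtain ⟨f, hf, rfl⟩ := mk_surj A
  simp only [pd_mk]
  refine mk_eq ?_
  filter_upwards [hf] with y a
  have h1 : DifferentiableAt ℝ (fderiv ℝ f) y :=
    (a.fderiv_right (m := 1) (by norm_cast)).differentiableAt one_ne_zero
  have h2 : ∀ u, fderiv ℝ (fun z => fderiv ℝ f z u) y
      = (fderiv ℝ (fderiv ℝ f) y).flip u := fun u => by
    rw [fderiv_clm_apply h1 (differentiableAt_const u)]; simp
  rw [h2, h2]
  exact (a.isSymmSndFDerivAt
    (by simp only [minSmoothness_of_isRCLikeNormedField]; norm_cast)) v w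

/-- the value of a germ -/
def vl : SG x →+* ℝ := Germ.valueRingHom.comp (SG x).subtype

theorem ev_mk (hg : SmAt g x) : vl (gm g hg) = g x := rfl

/-- the germ `G` extends the function `f` on `S` -/
def Rep (S : Set E) (f : E → ℝ) (G : SG x) : Prop := ∃ g hg, G = gm g hg ∧ f =ᶠ[𝓝[S] x] g

variable {A B : SG x}

theorem Rep.mk (hg : SmAt g x) : Rep S g (gm g hg) := ⟨g, hg, rfl, EventuallyEq.rfl⟩

theorem Rep.congr (h : Rep S f A) (e : g =ᶠ[𝓝[S] x] f) : Rep S g A := by
  obtain ⟨a, ha, rfl, h⟩ := h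
  exact ⟨a, ha, rfl, e.trans h⟩

theorem Rep.val (h : Rep S f A) (hx : x ∈ S) : vl A = f x := by
  obtain ⟨a, ha, rfl, h⟩ := h
  exact (h.self_of_nhdsWithin hx).symm

theorem Rep.eq (h : Rep S f A) (h' : Rep S g A) : f =ᶠ[𝓝[S] x] g := by
  obtain ⟨a, ha, rfl, h⟩ := h
  obtain ⟨b, hb, e, h'⟩ := h'
  exact (h.trans ((Germ.coe_eq.1 (congrArg Subtype.val e)).filter_mono nhdsWithin_le_nhds)).trans
    h'.symm

theorem Rep.add (h : Rep S f A) (h' : Rep S g B) : Rep S (fun y => f y + g y) (A + B) := by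
  obtain ⟨a, ha, rfl, h⟩ := h
  obtain ⟨b, hb, rfl, h'⟩ := h'
  exact ⟨_, ha.add hb, rfl, h.fun_add h'⟩

theorem Rep.mul (h : Rep S f A) (h' : Rep S g B) : Rep S (fun y => f y * g y) (A * B) := by
  obtain ⟨a, ha, rfl, h⟩ := h
  obtain ⟨b, hb, rfl, h'⟩ := h'
  exact ⟨_, ha.mul hb, rfl, h.fun_mul h'⟩

theorem Rep.neg (h : Rep S f A) : Rep S (fun y => - f y) (- A) := by
  obtain ⟨a, ha, rfl, h⟩ := h
  exact ⟨_, ha.neg, rfl, h.fun_neg⟩

theorem Rep.sub (h : Rep S f A) (h' : Rep S g B) : Rep S (fun y => f y - g y) (A - B) := by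
  simpa only [sub_eq_add_neg] using h.add h'.neg

theorem Rep.sq (h : Rep S f A) : Rep S (fun y => f y ^ 2) (A ^ 2) := by
  simpa only [pow_two] using h.mul h

theorem Rep.zero : Rep S (fun _ => 0) (0 : SG x) := Rep.mk (SmAt.const 0 x)

theorem Rep.sum {ι : Type} (s : Finset ι) {f : ι → E → ℝ} {A : ι → SG x}
    (h : ∀ i, Rep S (f i) (A i)) : Rep S (fun y => ∑ i ∈ s, f i y) (∑ i ∈ s, A i) := by
  classical
  induction s using Finset.induction_on with
  | empty => simpa using Rep.zero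
  | insert a s ha ih => simpa only [Finset.sum_insert ha] using (h a).add ih

variable [FiniteDimensional ℝ E]

omit [FiniteDimensional ℝ E] in
theorem Lev.smAt (h : Lev S F x) : SmAt F x := h.sm

theorem Lev.smNorm (h : Lev S F x) : SmAt (fun y => ‖fderiv ℝ F y‖) x := by
  have e : (fun y => ‖fderiv ℝ F y‖) = fun y => √(∑ i, fderiv ℝ F y (bs E i) ^ 2) := by
    funext y
    rw [← (bs E).norm_dual, Real.sqrt_sq (norm_nonneg _)]
  rw [e]
  have h1 : SmAt (fun y => ∑ i, fderiv ℝ F y (bs E i) ^ 2) x :=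
    SmAt.sum _ fun i => by simpa only [sq] using (h.smAt.pd _).mul (h.smAt.pd _)
  refine h1.comp (φ := fun t => √t) ?_
  have : ∑ i, fderiv ℝ F x (bs E i) ^ 2 ≠ 0 := by
    rw [← (bs E).norm_dual]; exact pow_ne_zero _ (norm_ne_zero_iff.2 h.ne)
  exact (eventually_ne_nhds this).mono fun t ht => Real.contDiffAt_sqrt ht

theorem Lev.smInv (h : Lev S F x) : SmAt (fun y => ‖fderiv ℝ F y‖⁻¹) x :=
  h.smNorm.comp (φ := fun t => t⁻¹)
    ((eventually_ne_nhds (norm_ne_zero_iff.2 h.ne)).mono fun _ ht => contDiffAt_inv ℝ ht)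

theorem Lev.smN (h : Lev S F x) (v : E) : SmAt (fun y => fderiv ℝ F y v / ‖fderiv ℝ F y‖) x := by
  simpa only [div_eq_mul_inv] using (h.smAt.pd v).mul h.smInv

/-- the differential ring attached to a level set function -/
def Lev.dat (h : Lev S F x) : Dat (Fin (Module.finrank ℝ E)) (SG x) where
  p k := pd (bs E k)
  n k := gm _ (h.smN (bs E k))
  F := gm F h.smAt
  s := gm _ h.smNorm
  q := gm _ h.smInv
  hf := gm _ (SmAt.const (1 / 2) x)
  lb k := pd_mul _
  cm i j := pd_comm _ _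
  un := by
    simp only [mk_mul]
    rw [mk_sum, mk_one]
    refine mk_eq ?_
    filter_upwards [h.ev] with y hy
    have := norm_ne_zero_iff.2 hy.ne
    simp only [← sq, div_pow, ← Finset.sum_div, ← (bs E).norm_dual]
    field_simp
  gr j := by
    rw [pd_mk, mk_mul]
    refine mk_eq ?_
    filter_upwards [h.ev] with y hy
    have := norm_ne_zero_iff.2 hy.ne
    field_simp
  qs := by
    rw [mk_mul, mk_one]
    refine mk_eq ?_
    filter_upwards [h.ev] with y hy
    exact inv_mul_cancel₀ (norm_ne_zero_iff.2 hy.ne)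
  two := by
    rw [two_mul, mk_add, mk_one]
    exact mk_eq (.of_forall fun y => by norm_num)

theorem Rep.del (h : Lev S F x) (hA : Rep S f A) (k : Fin (Module.finrank ℝ E)) :
    Rep S (del S f (bs E k)) (h.dat.d k A) := by
  obtain ⟨a, ha, rfl, e⟩ := hA
  have r := (Rep.mk (S := S) (ha.pd (bs E k))).sub ((Rep.mk (h.smN (bs E k))).mul
    (Rep.sum Finset.univ fun l => (Rep.mk (h.smN (bs E l))).mul (Rep.mk (ha.pd (bs E l)))))
  refine r.congr ?_
  filter_upwards [eventually_eventually_nhdsWithin.2 e, mem_nhdsWithin_of_mem_nhds ha.diff,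
    mem_nhdsWithin_of_mem_nhds h.ev, self_mem_nhdsWithin] with y b1 b2 b3 b4
  rw [del_congr b4 b1, del_eq b2.hasFDerivAt.hasFDerivWithinAt, b3.prj_eq b4]
  simp only [map_sub, map_smul, map_sum, smul_eq_mul]

theorem Lev.repP (h : Lev S F x) (i j : Fin (Module.finrank ℝ E)) :
    Rep S (fun y => ⟪bs E i, prj S y (bs E j)⟫_ℝ) (h.dat.P i j) := by
  have r0 : Rep S (fun _ => if i = j then (1 : ℝ) else 0) (if i = j then 1 else 0 : SG x) := by
    split_ifs
    · exact Rep.mk (SmAt.const 1 x)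
    · exact Rep.zero
  have r := r0.sub ((Rep.mk (h.smN (bs E i))).mul (Rep.mk (h.smN (bs E j))))
  refine r.congr ?_
  filter_upwards [mem_nhdsWithin_of_mem_nhds h.ev, self_mem_nhdsWithin] with y b3 b4
  rw [b3.prj_eq b4, inner_sub_right, inner_smul_right, (bs E).orthonormal.inner_right_fintype,
    orthonormal_iff_ite.1 (bs E).orthonormal]
  ring

theorem Lev.repC (h : Lev S F x) : Rep S (c2 S) h.dat.C := by
  have r := (Rep.sum Finset.univ fun k => Rep.sum Finset.univ fun i => Rep.sum Finset.univ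
    fun j => ((h.repP i j).del h k).sq).mul (Rep.mk (SmAt.const (1 / 2) x))
  have e : 2 * h.dat.C * gm _ (SmAt.const (1 / 2) x) = h.dat.C := by
    have : 2 * gm _ (SmAt.const (1 / 2) x) = 1 := h.dat.two
    linear_combination h.dat.C * this
  rw [h.dat.sqP, e] at r
  exact r.congr (.of_forall fun y => by simp only [c2]; ring)

end Vale.Agent.P366S
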