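import Vale.Agent.P366S.Inv

/-!
# P366S: the second fundamental form of a stable cone vanishes
-/

open MeasureTheory Set Filter Topology Real
open scoped ContDiff InnerProductSpace ENNReal

noncomputable section

namespace Vale.Agent.P366S

variable {E : Type} [NormedAddCommGroup E] [InnerProductSpace ℝ E] [FiniteDimensional ℝ E]
variable {S : Set E} {x : E} {V : Submodule ℝ E}

/-- compact boxes exhausting the complement of the spine -/
def box (V : Submodule ℝ E) (a b R : ℝ) : Set E :=
  {x | exp a ≤ rho V x ∧ rho V x ≤ exp b ∧ ‖V.starProjection x‖ ≤ R}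

theorem box_closed (a b R : ℝ) : IsClosed (box V a b R) :=
  (isClosed_le continuous_const rho_smooth.continuous).inter
    ((isClosed_le rho_smooth.continuous continuous_const).inter
      (isClosed_le V.starProjection.continuous.norm continuous_const))

theorem box_compact (a b R : ℝ) : IsCompact (box V a b R) := by
  refine Metric.isCompact_of_isClosed_isBounded (box_closed a b R)
    (isBounded_iff_forall_norm_le.2 ⟨1 + exp b + R, fun x hx => ?_⟩)
  have h1 : ‖x‖ ≤ ‖x - V.starProjection x‖ + ‖V.starProjection x‖ := by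
    simpa using norm_add_le (x - V.starProjection x) (V.starProjection x)
  have h2 := hx.2.1
  rw [rho] at h2
  nlinarith [hx.2.2, sq_nonneg (‖x - V.starProjection x‖ - 1), sq_nonneg ‖x - V.starProjection x‖]

theorem box_sub (a b R : ℝ) : box V a b R ⊆ (V : Set E)ᶜ := fun x hx hV => by
  have h := hx.1
  rw [rho, Submodule.starProjection_eq_self_iff.2 hV] at h
  simpa using (exp_pos a).trans_le h

theorem rho_aff (s : ℝ) {v : E} (hv : v ∈ V) (x : E) :
    rho V (exp s • x + v) = exp (2 * s) * rho V x := by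
  rw [rho, rho, map_add, map_smul, Submodule.starProjection_eq_self_iff.2 hv,
    add_sub_add_right_eq_sub, ← smul_sub, norm_smul, mul_pow, norm_eq_abs, sq_abs, ← exp_nat_mul]
  norm_num

theorem normsq_fd (V : Submodule ℝ E) (x : E) : ∃ D : E →L[ℝ] ℝ,
    HasFDerivAt (fun y => ‖V.starProjection y‖ ^ 2) D x ∧ ‖D‖ ≤ 2 * ‖V.starProjection x‖ := by
  refine ⟨_, (V.starProjection.hasFDerivAt (x := x)).norm_sq, ?_⟩
  rw [two_smul, two_mul]
  have : ‖(innerSL ℝ (V.starProjection x)).comp V.starProjection‖ ≤ ‖V.starProjection x‖ := by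
    refine (ContinuousLinearMap.opNorm_comp_le _ _).trans ?_
    rw [innerSL_apply_norm]
    exact mul_le_of_le_one_right (norm_nonneg _) (Submodule.starProjection_norm_le _)
  exact (norm_add_le _ _).trans (add_le_add this this)

theorem cutoff (V : Submodule ℝ E) : ∃ C : ℝ, 0 ≤ C ∧ ∀ p L R : ℝ, |p| ≤ 1 → 0 < L → 0 < R →
    ∃ ψ : E → ℝ, (∀ x ∉ V, SmAt ψ x) ∧ (∀ x ∉ V, x ∉ box V (-(2 * L)) (2 * L) (2 * R) → ψ x = 0) ∧
      (∀ x ∈ box V (-L) L R, ψ x ^ 2 = exp (p * log (rho V x))) ∧
      ∀ x ∉ V, ∃ D : E →L[ℝ] ℝ, HasFDerivAt ψ D x ∧ ‖D‖ ^ 2 ≤ 3 / 2 * (ψ x ^ 2 * (rho V x)⁻¹)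
        + 3 * (2 * C / L + 4 * C * exp L / R) ^ 2 * (box V (-(2 * L)) (2 * L) (2 * R)).indicator
          (fun x => exp (p * log (rho V x)) * (rho V x)⁻¹) x := by
  let θ : ContDiffBump (0 : ℝ) := ⟨1, 2, one_pos, one_lt_two⟩
  have θs : ContDiff ℝ ∞ θ := θ.contDiff
  obtain ⟨C, hC⟩ := θ.hasCompactSupport.deriv.exists_bound_of_continuous
    (θs.continuous_deriv (by simp))
  have θ0 : ∀ t, 2 < |t| → θ t = 0 ∧ deriv θ t = 0 := fun t ht => by
    have : t ∉ tsupport θ := by
      rw [θ.tsupport_eq]; simpa [θ] using ht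
    exact ⟨image_eq_zero_of_notMem_tsupport this, deriv_of_notMem_tsupport this⟩
  have θ1 : ∀ t, |t| ≤ 1 → θ t = 1 := fun t ht => θ.one_of_mem_closedBall (by simpa [θ] using ht)
  have C0 : 0 ≤ C := (norm_nonneg _).trans (hC 0)
  refine ⟨C, C0, fun p L R hp hL hR => ?_⟩
  set σ : E → ℝ := fun x => ‖V.starProjection x‖ ^ 2 with hσ
  have σs : ContDiff ℝ ∞ σ := V.starProjection.contDiff.norm_sq ℝ
  have out : ∀ x ∉ V, x ∉ box V (-(2 * L)) (2 * L) (2 * R) →
      2 < |log (rho V x) / L| ∨ 2 < |σ x / R ^ 2| := fun x hx hb => by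
    by_contra hc
    push Not at hc
    obtain ⟨h1, h2⟩ := hc
    rw [abs_le, le_div_iff₀ hL, div_le_iff₀ hL] at h1
    have h3 := (le_abs_self _).trans h2
    rw [div_le_iff₀ (by positivity)] at h3
    refine hb ⟨(le_log_iff_exp_le (rho_pos hx)).1 (by linarith [h1.1]),
      (log_le_iff_le_exp (rho_pos hx)).1 h1.2, ?_⟩
    refine abs_le_of_sq_le_sq' ?_ (by positivity) |>.2
    simp only [hσ] at h3
    nlinarith [sq_nonneg R]
  refine ⟨fun x => exp (p / 2 * log (rho V x)) * θ (log (rho V x) / L) * θ (σ x / R ^ 2),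
    fun x hx => ?_, fun x hx hb => ?_, fun x hx => ?_, fun x hx => ?_⟩
  · have l : SmAt (fun y => log (rho V y)) x :=
      SmAt.comp (f := rho V) (.of_forall fun _ => rho_smooth.contDiffAt)
        ((eventually_ne_nhds (rho_pos hx).ne').mono fun _ ht => contDiffAt_log.2 ht)
    refine ((l.comp (φ := fun t => exp (p / 2 * t)) ?_).mul
      (l.comp (φ := fun t => θ (t / L)) ?_)).mul ?_
    · exact .of_forall fun _ => (contDiffAt_const.mul contDiffAt_id).exp
    · exact .of_forall fun _ => θs.contDiffAt.comp _ (contDiffAt_id.div_const L)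
    · exact .of_forall fun _ => θs.contDiffAt.comp _ (σs.contDiffAt.div_const _)
  · rcases out x hx hb with h | h <;> simp only [(θ0 _ h).1, mul_zero, zero_mul]
  · have hx' := rho_pos (box_sub _ _ _ hx)
    have h1 : |log (rho V x) / L| ≤ 1 := by
      rw [abs_le, le_div_iff₀ hL, div_le_iff₀ hL]
      exact ⟨by simpa using (le_log_iff_exp_le hx').2 hx.1,
        by simpa using (log_le_iff_le_exp hx').2 hx.2.1⟩
    have h2 : |σ x / R ^ 2| ≤ 1 := by
      rw [abs_of_nonneg (by positivity), div_le_one (by positivity)]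
      exact pow_le_pow_left₀ (norm_nonneg _) hx.2.2 2
    simp only [θ1 _ h1, θ1 _ h2, mul_one, ← exp_nat_mul]
    congr 1; push_cast; ring
  · have hr := rho_pos hx
    set r := ‖x - V.starProjection x‖ with hr'
    have rr : rho V x = r ^ 2 := rfl
    have r0 : 0 < r := by
      rcases (norm_nonneg (x - V.starProjection x)).lt_or_eq with h | h
      · exact h
      · rw [rr, hr', ← h] at hr; simp at hr
    obtain ⟨D1, d1, n1⟩ := normsq_fd Vᗮ x
    obtain ⟨D2, d2, n2⟩ := normsq_fd V x
    simp only [Submodule.starProjection_orthogonal_val] at d1 n1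
    have θd : ∀ t, HasDerivAt θ (deriv θ t) t := fun t =>
      (θs.differentiable (by simp) t).hasDerivAt
    have d3 := (((hasDerivAt_log hr.ne').const_mul (p / 2)).exp.fun_mul
      ((θd _).comp _ ((hasDerivAt_log hr.ne').div_const L))).comp_hasFDerivAt (f := rho V) x d1
    have d4 := d3.fun_mul
      (((θd _).comp _ ((hasDerivAt_id (σ x)).div_const (R ^ 2))).comp_hasFDerivAt (f := σ) x d2)
    set e := exp (p / 2 * log (rho V x)) with he
    set a := θ (log (rho V x) / L) with ha
    set a' := deriv θ (log (rho V x) / L) with ha'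
    set b := θ (σ x / R ^ 2) with hb
    set b' := deriv θ (σ x / R ^ 2) with hb'
    have e0 : 0 < e := exp_pos _
    have a0 : 0 ≤ a := θ.nonneg
    have a1 : a ≤ 1 := θ.le_one
    have b0 : 0 ≤ b := θ.nonneg
    have b1 : b ≤ 1 := θ.le_one
    refine ⟨(e * b * (p / 2 * a + a' / L) / r ^ 2) • D1 + (e * a * b' / R ^ 2) • D2, ?_, ?_⟩
    · refine d4.congr_fderiv ?_
      ext w
      simp only [Function.comp, id, ← ha, ← hb, ← hb', ← he, add_apply, smul_apply, smul_eq_mul]
      rw [rr]
      ring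
    set β := 2 * |a'| * b / L + 2 * a * |b'| * ‖V.starProjection x‖ * r / R ^ 2 with hβ
    have β0 : 0 ≤ β := by positivity
    have n3 : ‖(e * b * (p / 2 * a + a' / L) / r ^ 2) • D1 + (e * a * b' / R ^ 2) • D2‖
        ≤ e / r * (a * b + β) := by
      refine (norm_add_le _ _).trans ?_
      rw [norm_smul, norm_smul, Real.norm_eq_abs, Real.norm_eq_abs, abs_div, abs_div, abs_mul, abs_mul,
        abs_mul, abs_mul, abs_of_pos e0, abs_of_nonneg b0, abs_of_nonneg a0,
        abs_of_pos (pow_pos r0 2), abs_of_pos (pow_pos hR 2)]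
      have h1 : |p / 2 * a + a' / L| ≤ a / 2 + |a'| / L := by
        refine (abs_add_le _ _).trans ?_
        rw [abs_mul, abs_div, abs_div, abs_of_nonneg a0, abs_of_pos hL, abs_two]
        nlinarith
      calc _ ≤ e * b * (a / 2 + |a'| / L) / r ^ 2 * (2 * r)
            + e * a * |b'| / R ^ 2 * (2 * ‖V.starProjection x‖) := by gcongr
        _ = _ := by rw [hβ]; field_simp; ring
    have n4 : β ^ 2 * (e ^ 2 * (r ^ 2)⁻¹) ≤ (2 * C / L + 4 * C * exp L / R) ^ 2 *
        (box V (-(2 * L)) (2 * L) (2 * R)).indicator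
          (fun x => exp (p * log (rho V x)) * (rho V x)⁻¹) x := by
      by_cases hm : x ∈ box V (-(2 * L)) (2 * L) (2 * R)
      · rw [indicator_of_mem hm]
        have e2 : e ^ 2 = exp (p * log (rho V x)) := by
          rw [he, ← exp_nat_mul]; congr 1; push_cast; ring
        rw [e2, rr]
        refine mul_le_mul_of_nonneg_right (pow_le_pow_left₀ β0 ?_ 2) (by positivity)
        have q1 : r ≤ exp L := by
          refine abs_le_of_sq_le_sq' ?_ (exp_pos L).le |>.2
          rw [← exp_nat_mul]; exact_mod_cast hm.2.1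
        have q2 := hm.2.2
        have q3 : |a'| ≤ C := hC _
        have q4 : |b'| ≤ C := hC _
        calc β ≤ 2 * C * 1 / L + 2 * 1 * C * (2 * R) * exp L / R ^ 2 := by rw [hβ]; gcongr
          _ = _ := by field_simp; ring
      · have : β = 0 := by
          rcases out x hx hm with h | h
          · rw [hβ, ha, ha', (θ0 _ h).1, (θ0 _ h).2]; simp
          · rw [hβ, hb, hb', (θ0 _ h).1, (θ0 _ h).2]; simp
        rw [this, indicator_of_notMem hm]; simp
    refine (pow_le_pow_left₀ (norm_nonneg _) n3 2).trans ?_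
    have n5 : (e / r * (a * b + β)) ^ 2 ≤ 3 / 2 * ((e * a * b) ^ 2 * (r ^ 2)⁻¹)
        + 3 * (β ^ 2 * (e ^ 2 * (r ^ 2)⁻¹)) := by
      have : (a * b + β) ^ 2 ≤ 3 / 2 * (a * b) ^ 2 + 3 * β ^ 2 := by
        nlinarith [sq_nonneg (a * b - 2 * β)]
      calc _ = e ^ 2 * (r ^ 2)⁻¹ * (a * b + β) ^ 2 := by field_simp
        _ ≤ e ^ 2 * (r ^ 2)⁻¹ * (3 / 2 * (a * b) ^ 2 + 3 * β ^ 2) := by gcongr
        _ = _ := by ring
    rw [rr]
    linarith

variable [MeasurableSpace E] [BorelSpace E] {μ : Measure E}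

theorem doubling {lam : Measure E} (fin : ∀ a b R, lam (box V a b R) < ⊤)
    (inv : ∀ s : ℝ, ∀ v ∈ V, ∀ A, MeasurableSet A → lam ((fun x => exp s • x + v) ⁻¹' A)
      = ENNReal.ofReal (exp (-(Module.finrank ℝ V * s))) * lam A) (L : ℝ) {R : ℝ} (hR : 0 ≤ R) :
    lam (box V (-(2 * L)) (2 * L) (2 * R)) ≤ 2 ^ (Module.finrank ℝ V + 1) * lam (box V (-L) L R) := by
  have mQ : Measurable V.orthogonalProjectionOnto := V.orthogonalProjectionOnto.measurable
  have haar : ∀ a b R, 0 ≤ R →
      lam (box V a b R) = ENNReal.ofReal (R ^ Module.finrank ℝ V) * lam (box V a b 1) :=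
    fun a b R hR => by
      set Z : Set E := {x | exp a ≤ rho V x ∧ rho V x ≤ exp b} with hZ
      have mZ : MeasurableSet Z := ((isClosed_le continuous_const rho_smooth.continuous).inter
        (isClosed_le rho_smooth.continuous continuous_const)).measurableSet
      set κ := (lam.restrict Z).map V.orthogonalProjectionOnto with hκ
      have k1 : ∀ B, MeasurableSet B → κ B = lam (V.orthogonalProjectionOnto ⁻¹' B ∩ Z) :=
        fun B hB => by rw [hκ, Measure.map_apply mQ hB, Measure.restrict_apply (mQ hB)]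
      have k2 : ∀ R, κ (Metric.closedBall 0 R) = lam (box V a b R) := fun R => by
        rw [k1 _ measurableSet_closedBall]
        congr 1
        ext x
        simp only [mem_inter_iff, mem_preimage, mem_closedBall_zero_iff, hZ, mem_ofPred_eq, box]
        exact ⟨fun h => ⟨h.2.1, h.2.2, h.1⟩, fun h => ⟨h.2.2, h.1, h.2.1⟩⟩
      have i1 : IsFiniteMeasureOnCompacts κ := ⟨fun K hK => by
        obtain ⟨R, hR⟩ := hK.isBounded.subset_closedBall 0
        exact (measure_mono hR).trans_lt (k2 R ▸ fin a b R)⟩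
      have i2 : κ.IsAddLeftInvariant := (forall_measure_preimage_add_iff κ).1 fun g A hA => by
        rw [k1 _ (measurable_const_add g hA), k1 _ hA]
        have := inv 0 g g.2 _ ((mQ hA).inter mZ)
        simp only [mul_zero, neg_zero, exp_zero, ENNReal.ofReal_one, one_mul, one_smul] at this
        rw [← this]
        congr 1
        ext x
        have := rho_aff 0 g.2 x
        simp only [mul_zero, exp_zero, one_mul, one_smul] at this
        simp only [mem_inter_iff, mem_preimage, hZ, mem_ofPred_eq, this, map_add,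
          Submodule.orthogonalProjectionOnto_mem_subspace_eq_self, add_comm g]
      rw [← k2, ← k2, Measure.isAddLeftInvariant_eq_smul κ Measure.addHaar, Measure.smul_apply,
        Measure.smul_apply, Measure.addHaar_closedBall' _ _ hR]
      simp only [ENNReal.smul_def, smul_eq_mul]
      ring
  have shift : ∀ a b s, lam (box V (a + 2 * s) (b + 2 * s) 1) = lam (box V a b 1) := fun a b s => by
    have h1 := inv s 0 V.zero_mem _
      (box_closed (V := V) (a + 2 * s) (b + 2 * s) (exp s)).measurableSet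
    have h2 : (fun x => exp s • x + 0) ⁻¹' box V (a + 2 * s) (b + 2 * s) (exp s) = box V a b 1 := by
      ext x
      simp only [mem_preimage, box, mem_ofPred_eq, rho_aff s V.zero_mem, exp_add,
        mul_comm (exp (2 * s)), mul_le_mul_iff_left₀ (exp_pos _)]
      rw [add_zero, map_smul, norm_smul, norm_eq_abs, abs_of_pos (exp_pos s),
        mul_le_iff_le_one_right (exp_pos s)]
    rw [h2, haar _ _ _ (exp_pos s).le, ← mul_assoc, ← ENNReal.ofReal_mul (exp_pos _).le,
      ← exp_nat_mul, ← exp_add] at h1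
    simpa using h1.symm
  have c1 : box V (-(2 * L)) (2 * L) 1 ⊆ box V (-L + 2 * (-L / 2)) (L + 2 * (-L / 2)) 1
      ∪ box V (-L + 2 * (L / 2)) (L + 2 * (L / 2)) 1 := fun x hx => by
    rcases le_total (rho V x) 1 with h | h
    · exact .inl ⟨by convert hx.1 using 2; ring,
        by rw [show L + 2 * (-L / 2) = 0 by ring, exp_zero]; exact h, hx.2.2⟩
    · exact .inr ⟨by rw [show -L + 2 * (L / 2) = 0 by ring, exp_zero]; exact h,
        by convert hx.2.1 using 2; ring, hx.2.2⟩
  have c2 := (measure_mono (μ := lam) c1).trans (measure_union_le _ _)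
  rw [shift, shift, ← two_mul] at c2
  rw [haar _ _ _ (by positivity : 0 ≤ 2 * R), haar _ _ _ hR, mul_pow,
    ENNReal.ofReal_mul (by positivity), ENNReal.ofReal_pow zero_le_two, ENNReal.ofReal_ofNat]
  calc _ ≤ 2 ^ Module.finrank ℝ V * ENNReal.ofReal (R ^ Module.finrank ℝ V)
        * (2 * lam (box V (-L) L 1)) := by gcongr
    _ = _ := by ring

omit [FiniteDimensional ℝ E] in
theorem Cone.lint (h : Cone V S μ) (s : ℝ) {v : E} (hv : v ∈ V) (g : E → ℝ≥0∞) :
    ∫⁻ x, g (exp s • x + v) ∂μ
      = ENNReal.ofReal ((exp s)⁻¹ ^ (Module.finrank ℝ E - 1)) * ∫⁻ x, g x ∂μ := by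
  have e1 := (measurableEmbedding_const_smul₀ (α := E) (exp_pos s).ne').lintegral_map (μ := μ)
    fun x => g (x + v)
  have e2 := (measurableEmbedding_addRight v).lintegral_map (μ := μ) g
  rw [h.mtr v hv] at e2
  rw [← e1, h.mdil _ (exp_pos s), lintegral_smul_measure, ← e2, smul_eq_mul]

/-- the second fundamental form of a stable cone vanishes -/
theorem Cone.c2_zero (h : Cone V S μ) (hs : Stable (V : Set E)ᶜ S μ)
    (h1 : Module.finrank ℝ V + 3 ≤ Module.finrank ℝ E)
    (h2 : Module.finrank ℝ E ≤ Module.finrank ℝ V + 7) (hx : x ∈ S) : c2 S x = 0 := by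
  have hU := isOpen_spine V
  have mS := hs.meas hU
  set p : ℝ := (5 - Module.finrank ℝ E + Module.finrank ℝ V) / 2 with hp
  have p1 : |p| ≤ 1 := by
    have a1 : (Module.finrank ℝ V : ℝ) + 3 ≤ Module.finrank ℝ E := by exact_mod_cast h1
    have a2 : (Module.finrank ℝ E : ℝ) ≤ Module.finrank ℝ V + 7 := by exact_mod_cast h2
    rw [abs_le]; constructor <;> linarith
  set W : E → ℝ := fun x => c2 S x * (exp (p * log (rho V x)) * (rho V x)⁻¹) with hW
  have W0 : ∀ x, 0 ≤ W x := fun x =>
    mul_nonneg (c2_nonneg S x) (mul_nonneg (exp_pos _).le (inv_nonneg.2 (sq_nonneg _)))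
  have Wc : ContinuousOn W S := by
    have := (rho_smooth (V := V)).continuous.continuousOn (s := S)
    have n : ∀ x ∈ S, rho V x ≠ 0 := fun x hx => (rho_pos (hs.sub hx)).ne'
    exact (sm_c2 hs.reg).cont.mul ((continuousOn_const.mul (this.log n)).rexp.mul (this.inv₀ n))
  have Wi : ∀ a b R, IntegrableOn W (box V a b R ∩ S) μ := fun a b R =>
    hs.int' hU (box_compact a b R) (box_sub a b R) Wc
  set lam := (μ.restrict S).withDensity fun x => ENNReal.ofReal (W x) with hlam
  have l1 : ∀ A, MeasurableSet A → lam A = ∫⁻ x in A ∩ S, ENNReal.ofReal (W x) ∂μ :=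
    fun A hA => by rw [hlam, withDensity_apply _ hA, Measure.restrict_restrict hA]
  have l2 : ∀ a b R, lam (box V a b R) = ENNReal.ofReal (∫ x in box V a b R ∩ S, W x ∂μ) :=
    fun a b R => by
      rw [l1 _ (box_closed a b R).measurableSet,
        ofReal_integral_eq_lintegral_ofReal (Wi a b R) (.of_forall W0)]
  have inv : ∀ s : ℝ, ∀ v ∈ V, ∀ A, MeasurableSet A → lam ((fun x => exp s • x + v) ⁻¹' A)
      = ENNReal.ofReal (exp (-(Module.finrank ℝ V * s))) * lam A := fun s v hv A hA => by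
    have mT : Measurable fun x : E => exp s • x + v := by fun_prop
    have e : ∀ x, ((fun x => exp s • x + v) ⁻¹' A ∩ S).indicator (fun x => ENNReal.ofReal (W x)) x
        = ENNReal.ofReal (exp ((4 - 2 * p) * s))
          * (A ∩ S).indicator (fun x => ENNReal.ofReal (W x)) (exp s • x + v) := fun x => by
      by_cases hx : exp s • x + v ∈ A ∧ x ∈ S
      · rw [indicator_of_mem (by exact hx),
          indicator_of_mem (by exact ⟨hx.1, h.aff (exp_pos s) hv x hx.2⟩),
          ← ENNReal.ofReal_mul (exp_pos _).le]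
        congr 1
        have r := rho_pos (hs.sub hx.2)
        simp only [hW, rho_aff s hv]
        rw [h.c2_aff hs.reg (exp_pos s) hv hx.2, log_mul (exp_pos _).ne' r.ne', log_exp, mul_add,
          exp_add, show (4 - 2 * p) * s = 2 * s + 2 * s - p * (2 * s) by ring, exp_sub, exp_add,
          ← exp_nat_mul]
        push_cast
        field_simp
      · rw [indicator_of_notMem (by exact hx), indicator_of_notMem, mul_zero]
        exact fun a => hx ⟨a.1, (h.aff_iff (exp_pos s) hv x).1 a.2⟩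
    rw [l1 _ (mT hA), l1 _ hA, ← lintegral_indicator ((mT hA).inter mS),
      ← lintegral_indicator (hA.inter mS)]
    simp only [e]
    rw [lintegral_const_mul' _ _ ENNReal.ofReal_ne_top, h.lint s hv, ← mul_assoc,
      ← ENNReal.ofReal_mul (exp_pos _).le, ← exp_neg, ← exp_nat_mul, ← exp_add,
      Nat.cast_sub (by omega)]
    congr 3
    rw [hp]; push_cast; ring
  have dbl : ∀ L R, 0 ≤ R → ∫ x in box V (-(2 * L)) (2 * L) (2 * R) ∩ S, W x ∂μ
      ≤ 2 ^ (Module.finrank ℝ V + 1) * ∫ x in box V (-L) L R ∩ S, W x ∂μ := fun L R hR => by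
    have := doubling (fun a b R => by rw [l2]; exact ENNReal.ofReal_lt_top) inv L hR
    rw [l2, l2, ← ENNReal.ofReal_ofNat, ← ENNReal.ofReal_pow zero_le_two,
      ← ENNReal.ofReal_mul (by positivity)] at this
    exact (ENNReal.ofReal_le_ofReal_iff (mul_nonneg (by positivity) (integral_nonneg W0))).1 this
  obtain ⟨C, C0, hC⟩ := cutoff V
  set M : ℝ := 2 ^ (Module.finrank ℝ V + 1) with hM
  have M1 : 1 ≤ M := one_le_pow₀ one_le_two
  set L : ℝ := 16 * M * C + |log (rho V x)| + 1 with hL
  have L0 : 0 < L := by positivity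
  set R : ℝ := 32 * M * C * exp L + ‖V.starProjection x‖ + 1 with hR
  have R0 : 0 < R := by positivity
  obtain ⟨ψ, a1, a2, a3, a4⟩ := hC p L R p1 L0 R0
  have hψ : TS (V : Set E)ᶜ S ψ := ⟨.of_smAt fun y hy => a1 y (hs.sub hy), _, box_compact _ _ _,
    box_sub _ _ _, fun y hy => a2 y (hs.sub hy)⟩
  have hw : Sm S fun y => (rho V y)⁻¹ :=
    (Sm.of_smAt (f := rho V) fun x _ => .of_forall fun _ => rho_smooth.contDiffAt).comp
      (φ := fun t => t⁻¹) fun x hx =>
        (eventually_ne_nhds (rho_pos (hs.sub hx)).ne').mono fun _ ht => contDiffAt_inv ℝ ht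
  have i1 := hs.int hU (hψ.sq.mul ((sm_c2 hs.reg).mul hw))
  have i2 := hs.int hU ((TS.sum Finset.univ fun k => (hψ.del hs.reg k).sq).mul' (sm_c2 hs.reg))
  have ind : ∀ a b R, IntegrableOn ((box V a b R).indicator W) S μ ∧
      ∫ x in S, (box V a b R).indicator W x ∂μ = ∫ x in box V a b R ∩ S, W x ∂μ := fun a b R => by
    have m := (box_closed (V := V) a b R).measurableSet
    refine ⟨(integrable_indicator_iff m).2 ?_, ?_⟩
    · rw [IntegrableOn, Measure.restrict_restrict m]; exact Wi a b R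
    · rw [integral_indicator m, Measure.restrict_restrict m]
  set ε := 2 * C / L + 4 * C * exp L / R with hε
  have b1 := h.hardy hs hψ
  have b2 : ∫ y in S, c2 S y * ∑ k, del S ψ (bs E k) y ^ 2 ∂μ
      ≤ 3 / 2 * ∫ y in S, ψ y ^ 2 * (c2 S y * (rho V y)⁻¹) ∂μ
        + 3 * ε ^ 2 * ∫ x in box V (-(2 * L)) (2 * L) (2 * R) ∩ S, W x ∂μ := by
    rw [← (ind _ _ _).2, ← integral_const_mul, ← integral_const_mul,
      ← integral_add (i1.const_mul _) ((ind _ _ _).1.const_mul _)]
    refine setIntegral_mono_on i2 ((i1.const_mul _).add ((ind _ _ _).1.const_mul _)) mS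
      fun y hy => ?_
    obtain ⟨D, d1, d2⟩ := a4 y (hs.sub hy)
    refine (mul_le_mul_of_nonneg_left ((grad_le S d1).trans d2) (c2_nonneg S y)).trans_eq ?_
    by_cases hb : y ∈ box V (-(2 * L)) (2 * L) (2 * R)
    · simp only [indicator_of_mem hb, hW]; ring
    · simp only [indicator_of_notMem hb]; ring
  have b3 : ∫ x in box V (-L) L R ∩ S, W x ∂μ
      ≤ ∫ y in S, ψ y ^ 2 * (c2 S y * (rho V y)⁻¹) ∂μ := by
    rw [← (ind _ _ _).2]
    refine setIntegral_mono_on (ind _ _ _).1 i1 mS fun y _ => ?_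
    by_cases hy : y ∈ box V (-L) L R
    · rw [indicator_of_mem hy, a3 y hy, hW]
      exact le_of_eq (by ring)
    · rw [indicator_of_notMem hy]
      exact mul_nonneg (sq_nonneg _) (mul_nonneg (c2_nonneg S y) (inv_nonneg.2 (sq_nonneg _)))
  have b4 := dbl L R R0.le
  have b5 : 0 ≤ ∫ x in box V (-L) L R ∩ S, W x ∂μ := integral_nonneg W0
  have e1 : ε * M ≤ 1 / 4 := by
    have q1 : 2 * C / L * M ≤ 1 / 8 := by
      rw [div_mul_eq_mul_div, div_le_iff₀ L0, hL]
      have := abs_nonneg (log (rho V x))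
      linarith
    have q2 : 4 * C * exp L / R * M ≤ 1 / 8 := by
      rw [div_mul_eq_mul_div, div_le_iff₀ R0, hR]
      have := norm_nonneg (V.starProjection x)
      linarith
    rw [hε]; linarith
  have e2 : ε ^ 2 * M ≤ 1 / 16 := by
    have ε0 : 0 ≤ ε := by positivity
    nlinarith [mul_nonneg ε0 (sub_nonneg.2 M1)]
  have b6 : ∫ x in box V (-L) L R ∩ S, W x ∂μ = 0 := by
    have := mul_le_mul_of_nonneg_left b4 (sq_nonneg ε)
    have := mul_le_mul_of_nonneg_right e2 b5
    linarith
  rw [setIntegral_eq_zero_iff_of_nonneg_ae (.of_forall W0) (Wi _ _ _), EventuallyEq,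
    ae_restrict_iff' ((box_closed _ _ _).measurableSet.inter mS)] at b6
  have r := rho_pos (hs.sub hx)
  have nb : box V (-L) L R ∈ 𝓝 x := by
    have c := (rho_smooth (V := V)).continuous.continuousAt (x := x)
    have q1 : exp (-L) < rho V x := (lt_log_iff_exp_lt r).1 (by
      have := neg_abs_le (log (rho V x))
      have : 0 ≤ 16 * M * C := by positivity
      linarith)
    have q2 : rho V x < exp L := (log_lt_iff_lt_exp r).1 (by
      have := le_abs_self (log (rho V x))
      have : 0 ≤ 16 * M * C := by positivity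
      linarith)
    have q3 : ‖V.starProjection x‖ < R := by
      have : 0 ≤ 32 * M * C * exp L := by positivity
      linarith
    filter_upwards [c.eventually (lt_mem_nhds q1), c.eventually (gt_mem_nhds q2),
      V.starProjection.continuous.norm.continuousAt.eventually (gt_mem_nhds q3)] with y y1 y2 y3
      using ⟨y1.le, y2.le, y3.le⟩
  by_contra hne
  have hW0 : W x ≠ 0 := mul_ne_zero hne (mul_pos (exp_pos _) (inv_pos.2 r)).ne'
  have h1 := eventually_nhdsWithin_iff.1 ((Wc x hx).eventually_ne hW0)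
  refine hs.pos x hx _ (inter_mem (inter_mem h1 nb) (hU.mem_nhds (hs.sub hx)))
    (measure_eq_zero_iff_ae_notMem.2 ?_)
  filter_upwards [b6, measure_eq_zero_iff_ae_notMem.1 hs.null] with y a b c
  have hy : y ∈ S := by_contra fun hy => b ⟨c.2, hy⟩
  exact c.1.1 hy (a ⟨c.1.2, hy⟩)

end Vale.Agent.P366S
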