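import Vale.Agent.P366S.Germ

/-!
# P366S: the pointwise inequality of Simons on a minimal cone
-/

open Set Filter Topology Finset
open scoped ContDiff InnerProductSpace

noncomputable section

namespace Vale.Agent.P366S

variable {E : Type} [NormedAddCommGroup E] [InnerProductSpace ℝ E] [FiniteDimensional ℝ E]
variable {S : Set E} {F f g : E → ℝ} {x : E}

/-- the components of the tangential projection -/
def Pc (S : Set E) (i j : Fin (Module.finrank ℝ E)) (y : E) : ℝ := ⟪bs E i, prj S y (bs E j)⟫_ℝ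

/-- the components of the mean curvature vector -/
def mc (S : Set E) (j : Fin (Module.finrank ℝ E)) (y : E) : ℝ := ∑ i, del S (Pc S i j) (bs E i) y

theorem del_const (S : Set E) (a : ℝ) (v : E) : del S (fun _ => a) v = fun _ => 0 := by
  funext y; simp [del]

theorem Rep.del0 (h : Lev S F x) {A : SG x} (hA : Rep S (fun _ => 0) A)
    (k : Fin (Module.finrank ℝ E)) : Rep S (fun _ => 0) (h.dat.d k A) := by
  have := hA.del h k
  rwa [del_const] at this

theorem Lev.repH (h : Lev S F x) (hm : ∀ j, ∀ᶠ y in 𝓝[S] x, mc S j y = 0) :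
    Rep S (fun _ => 0) h.dat.H := by
  have r : ∀ j, Rep S (mc S j) (- (h.dat.H * h.dat.n j)) := fun j => by
    rw [← h.dat.divP]
    exact Rep.sum _ fun i => (h.repP i j).del h i
  have r2 := (Rep.sum univ fun j => (r j).mul (Rep.mk (h.smN (bs E j)))).neg
  have e : - ∑ j, - (h.dat.H * h.dat.n j) * h.dat.n j = h.dat.H := by
    simp only [neg_mul, sum_neg_distrib, neg_neg, mul_assoc, ← mul_sum, h.dat.un, mul_one]
  rw [← e]
  refine r2.congr ?_
  filter_upwards [eventually_all.2 hm] with y hy
  simp [hy]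

theorem c2_nonneg (S : Set E) (x : E) : 0 ≤ c2 S x := by
  unfold c2; positivity

theorem Lev.simons (h : Lev S F x) (hx : x ∈ S) (hm : ∀ j, ∀ᶠ y in 𝓝[S] x, mc S j y = 0) {v : E}
    (hv : ∀ᶠ y in 𝓝[S] x, y - v ∈ tsp S y) (hr : x - v ≠ 0) : ∃ T : ℝ, 0 ≤ T ∧
    ∑ k, del S (del S (c2 S) (bs E k)) (bs E k) x
      = 2 * (T - c2 S x ^ 2 + 2 * c2 S x / ‖x - v‖ ^ 2) ∧
    ∑ k, del S (c2 S) (bs E k) x ^ 2 ≤ 4 * (c2 S x * T) := by
  set D := h.dat with hD
  have hXs : ∀ j, SmAt (fun y => ⟪bs E j, y - v⟫_ℝ) x := fun j =>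
    .of_forall fun y => contDiffAt_const.inner ℝ (contDiffAt_id.sub contDiffAt_const)
  set X : Fin (Module.finrank ℝ E) → SG x := fun j => gm _ (hXs j) with hX
  have pX : ∀ k j, D.p k (X j) = if k = j then 1 else 0 := fun k j => by
    have e : (if k = j then 1 else 0 : SG x) = gm _ (SmAt.const (if k = j then 1 else 0) x) := by
      split_ifs <;> rfl
    rw [e]
    refine mk_eq (hf := (hXs j).pd (bs E k)) (.of_forall fun y => ?_)
    have := (hasFDerivAt_sub (innerSL ℝ (bs E j)) v y).fderiv
    simp only [innerSL_apply_apply] at this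
    simp only [this, innerSL_apply_apply, orthonormal_iff_ite.1 (bs E).orthonormal, eq_comm]
  have rH := h.repH hm
  have r0 : Rep S (fun _ => 0) (∑ j, D.n j * X j) := by
    refine (Rep.sum univ fun j => (Rep.mk (h.smN (bs E j))).mul (Rep.mk (hXs j))).congr ?_
    filter_upwards [hv, mem_nhdsWithin_of_mem_nhds h.ev, self_mem_nhdsWithin] with y b1 b2 b3
    have := sum_bs (fderiv ℝ F y) (y - v)
    rw [(b2.mem_tsp b3 _).1 b1] at this
    simp only [div_mul_eq_mul_div, ← sum_div, mul_comm (fderiv ℝ F y (bs E _)), this, zero_div]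
  have r1 : ∀ i, Rep S (fun _ => 0) (∑ j, D.A i j * X j) := fun i => by
    rw [← D.dnX pX]; exact r0.del0 h i
  have r2 : ∀ k i, Rep S (fun _ => 0) (∑ j, D.d k (D.A i j) * X j + D.A k i) := fun k i => by
    rw [← D.dAX pX]; exact (r1 i).del0 h k
  have hC : c2 S x = ∑ i, ∑ j, vl (D.A i j) * vl (D.A i j) := by
    rw [← h.repC.val hx]; simp only [Dat.C, map_sum, map_mul, hD]
  have hAX : ∀ i, ∑ j, vl (D.A i j) * vl (X j) = 0 := fun i => by
    simpa only [map_sum, map_mul] using (r1 i).val hx
  obtain ⟨T, hT, e1, e2⟩ := kato (fun i => vl (D.n i)) (fun i => vl (X i))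
    (fun i j => vl (D.A i j)) (fun i j => vl (D.B i j)) (fun k i j => vl (D.d k (D.A i j)))
    (‖x - v‖ ^ 2) (pow_pos (norm_pos_iff.2 hr) 2)
    (by simpa only [map_sum, map_mul, map_one] using congrArg vl D.un)
    (by simp only [hX, ev_mk, ← sq]; exact (bs E).sum_sq_inner_right _)
    (by simpa only [map_sum, map_mul] using r0.val hx)
    (fun i => by simpa only [map_sum, map_mul, map_zero] using congrArg vl (D.An i))
    hAX
    (fun i => by simpa only [map_sum, map_mul, map_zero] using congrArg vl (D.Bn i))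
    (fun i => by
      simp only [Dat.B, map_sum, map_mul, sum_mul]
      rw [sum_comm]
      refine sum_eq_zero fun l _ => ?_
      simp only [mul_assoc]
      rw [← mul_sum, hAX, mul_zero])
    (fun k i j => by rw [D.A_sym])
    (fun k i => by simpa only [map_sum, map_mul, map_neg] using congrArg vl (D.dAn k i))
    (fun k i => by
      have := (r2 k i).val hx
      simp only [map_sum, map_mul, map_add] at this
      linarith)
    (fun i j => by rw [D.A_sym])
  refine ⟨T, hT, ?_, ?_⟩
  · have e3 := congrArg vl D.simons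
    have e4 : ∀ k, vl (D.d k (D.d k D.C)) = del S (del S (c2 S) (bs E k)) (bs E k) x :=
      fun k => ((h.repC.del h k).del h k).val hx
    have e5 : ∀ i j, vl (D.d i (D.d j D.H)) = 0 := fun i j => ((rH.del0 h j).del0 h i).val hx
    have e6 : vl D.H = 0 := rH.val hx
    have e7 : vl D.C = c2 S x := h.repC.val hx
    simp only [map_sum, map_mul, map_add, map_sub, map_ofNat, e4, e5, e6, e7, mul_zero, zero_mul,
      sum_const_zero] at e3
    rw [e3, e1, ← hC]; ring
  · have e4 : ∀ k, del S (c2 S) (bs E k) x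
        = 2 * ∑ i, ∑ j, vl (D.A i j) * vl (D.d k (D.A i j)) := fun k => by
      rw [← (h.repC.del h k).val hx]
      simpa only [map_sum, map_mul, map_ofNat] using congrArg vl (D.dC k)
    simp only [e4, mul_pow, ← mul_sum]
    rw [hC]; linarith

end Vale.Agent.P366S
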